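import Crest.Agent.X37.Geo.Tree
import Crest.Agent.X37.Geo.Surgery_Mg
import Crest.Agent.X37.LB.Defs
import Crest.Agent.X37.Gr.Classes
import Crest.Agent.X37.IO.Defs
import Crest.Agent.X37.Outer.Defs
import Crest.Agent.X37.Solv
import Crest.Agent.X37.Inner.Defs
import Crest.Agent.X37.PT.Inv

-- ▼ part X37/Geo/Merge
section

/-!
X37 geometry: networks (one tree per class of a label map) and the connector steps.
-/

set_option autoImplicit false

namespace Crest.Agent.X37.Geo

open Finset

variable {V : Type} [Fintype V] [DecidableEq V]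

/-- a network: the tree `T (φ v)` comes within `r` of `v`, all edges are at most `l`, the total
length is at most `c` -/
structure St (d : V → V → ℝ) (φ : V → V) (T : V → Tr V) (r l c : ℝ) : Prop where
  cov : ∀ v, ∃ x, (T (φ v)).Mem x ∧ d v x ≤ r
  bdd : ∀ i, (T i).Bdd d l
  cost : ∑ i, (T i).cost d ≤ c

theorem St.mono {d : V → V → ℝ} {φ : V → V} {T : V → Tr V} {r l c r' l' c' : ℝ}
    (h : St d φ T r l c) (hr : r ≤ r') (hl : l ≤ l') (hc : c ≤ c') : St d φ T r' l' c' :=
  ⟨fun v => let ⟨x, h1, h2⟩ := h.cov v; ⟨x, h1, h2.trans hr⟩, fun i => (h.bdd i).mono hl,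
    h.cost.trans hc⟩

theorem ncl_le_of {f g : V → V} (h : ∀ a b, f a = f b → g a = g b) : ncl g ≤ ncl f := by
  classical
  unfold ncl
  refine card_le_card_of_surjOn (fun i => if hi : ∃ a, f a = i then g hi.choose else i) ?_
  intro y hy
  obtain ⟨a, -, rfl⟩ := mem_image.1 (mem_coe.1 hy)
  have hi : ∃ b, f b = f a := ⟨a, rfl⟩
  refine ⟨f a, mem_coe.2 (mem_image_of_mem _ (mem_univ a)), ?_⟩
  simp only [dif_pos hi]
  exact h _ _ hi.choose_spec

theorem one_le_ncl [Nonempty V] (f : V → V) : 1 ≤ ncl f :=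
  card_pos.2 (univ_nonempty.image f)

theorem sum_update_cost (d : V → V → ℝ) (T : V → Tr V) (j : V) (U : Tr V) :
    ∑ i, (Function.update T j U i).cost d = ∑ i, (T i).cost d - (T j).cost d + U.cost d := by
  rw [← add_sum_erase _ _ (mem_univ j), ← add_sum_erase _ (fun i => (T i).cost d) (mem_univ j),
    Function.update_self]
  have : ∑ i ∈ univ.erase j, (Function.update T j U i).cost d
      = ∑ i ∈ univ.erase j, (T i).cost d :=
    sum_congr rfl fun i hi => by rw [Function.update_of_ne (ne_of_mem_erase hi)]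
  rw [this]; ring

theorem St.merge_one {d : V → V → ℝ} (hd : IsPM d) {φ : V → V} {T : V → Tr V} {r l c σ : ℝ}
    (h : St d φ T r l c) {u v : V} (huv : φ u ≠ φ v) (hσ : d u v ≤ σ) (hl : σ + 2 * r ≤ l) :
    ∃ φ' T', St d φ' T' r l (c + (σ + 2 * r)) ∧ ncl φ' < ncl φ ∧
      (∀ a b, φ' a = φ' b → φ a = φ b ∨ (φ a = φ u ∧ φ b = φ v) ∨ (φ a = φ v ∧ φ b = φ u)) ∧
      (∀ a b, φ a = φ b → φ' a = φ' b) := by
  obtain ⟨x, hx, hux⟩ := h.cov u
  obtain ⟨y, hy, hvy⟩ := h.cov v
  have hxy : d x y ≤ σ + 2 * r := by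
    have h1 := hd.tri x u y
    have h2 := hd.tri u v y
    rw [hd.symm x u] at h1
    linarith
  obtain ⟨U, hU1, hU2, hU3⟩ := Tr.link hd hx hy (h.bdd _) (h.bdd _) (hxy.trans hl)
  refine ⟨fun w => if φ w = φ v then φ u else φ w,
    Function.update (Function.update T (φ u) U) (φ v) (.pt v), ⟨fun w => ?_, fun i => ?_, ?_⟩,
    ?_, fun a b hab => ?_, fun a b hab => by simp only [hab]⟩
  · obtain ⟨z, hz, hwz⟩ := h.cov w
    refine ⟨z, ?_, hwz⟩
    by_cases h1 : φ w = φ v
    · simp only [if_pos h1, Function.update_of_ne huv, Function.update_self]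
      exact (hU1 z).2 (Or.inr (h1 ▸ hz))
    · simp only [if_neg h1, Function.update_of_ne h1]
      by_cases h2 : φ w = φ u
      · rw [h2, Function.update_self]
        exact (hU1 z).2 (Or.inl (h2 ▸ hz))
      · rw [Function.update_of_ne h2]; exact hz
  · by_cases h1 : i = φ v
    · rw [h1, Function.update_self]; trivial
    · rw [Function.update_of_ne h1]
      by_cases h2 : i = φ u
      · rw [h2, Function.update_self]; exact hU3
      · rw [Function.update_of_ne h2]; exact h.bdd i
  · rw [sum_update_cost, sum_update_cost, Function.update_of_ne huv.symm, hU2]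
    have := h.cost
    simp only [Tr.cost]
    linarith
  · unfold ncl
    refine lt_of_le_of_lt (card_le_card (t := (univ.image φ).erase (φ v)) ?_)
      (card_erase_lt_of_mem (mem_image_of_mem _ (mem_univ v)))
    intro i hi
    obtain ⟨w, -, rfl⟩ := mem_image.1 hi
    by_cases h1 : φ w = φ v
    · simp only [if_pos h1]
      exact mem_erase.2 ⟨huv, mem_image_of_mem _ (mem_univ u)⟩
    · simp only [if_neg h1]
      exact mem_erase.2 ⟨h1, mem_image_of_mem _ (mem_univ w)⟩
  · by_cases h1 : φ a = φ v <;> by_cases h2 : φ b = φ v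
    · exact Or.inl (h1.trans h2.symm)
    · simp only [if_pos h1, if_neg h2] at hab
      exact Or.inr (Or.inr ⟨h1, hab.symm⟩)
    · simp only [if_neg h1, if_pos h2] at hab
      exact Or.inr (Or.inl ⟨hab, h2⟩)
    · simp only [if_neg h1, if_neg h2] at hab
      exact Or.inl hab

omit [Fintype V] [DecidableEq V] in
theorem exists_step {R : V → V → Prop} {φ : V → V} {a b : V}
    (h : Relation.ReflTransGen R a b) (hab : φ a ≠ φ b) : ∃ x y, R x y ∧ φ x ≠ φ y := by
  induction h with
  | refl => exact absurd rfl hab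
  | @tail x y _ hxy ih =>
    by_cases h1 : φ x = φ y
    · exact ih (fun h2 => hab (h2.trans h1))
    · exact ⟨x, y, hxy, h1⟩

theorem St.merge_all {d : V → V → ℝ} (hd : IsPM d) {Q P : V → V} {r l σ : ℝ}
    (hQ : ∀ a b, Q a = Q b → Relation.ReflTransGen (fun x y => Q x = Q y ∧ d x y ≤ σ) a b)
    (hQP : ∀ a b, Q a = Q b → P a = P b) (h0 : 0 ≤ σ + 2 * r) (hl : σ + 2 * r ≤ l) :
    ∀ (n : ℕ) (φ : V → V) (T : V → Tr V) (c : ℝ), ncl φ ≤ n → St d φ T r l c →
      (∀ a b, φ a = φ b → P a = P b) →
      ∃ φ' T', St d φ' T' r l (c + (σ + 2 * r) * ((ncl φ : ℝ) - ncl φ')) ∧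
        (∀ a b, Q a = Q b → φ' a = φ' b) ∧ (∀ a b, φ' a = φ' b → P a = P b) ∧
        ncl φ' ≤ ncl φ := by
  intro n
  induction n with
  | zero =>
    intro φ T c hn h hP
    refine ⟨φ, T, by simpa using h, fun a b _ => ?_, hP, le_rfl⟩
    have : 0 < ncl φ := card_pos.2 ⟨φ a, mem_image_of_mem _ (mem_univ a)⟩
    omega
  | succ n ih =>
    intro φ T c hn h hP
    by_cases hc : ∀ a b, Q a = Q b → φ a = φ b
    · exact ⟨φ, T, by simpa using h, hc, hP, le_rfl⟩
    push Not at hc
    obtain ⟨a, b, hab, hne⟩ := hc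
    obtain ⟨x, y, ⟨hxy, hdxy⟩, hne'⟩ := exists_step (hQ a b hab) hne
    obtain ⟨φ1, T1, s1, n1, p1, -⟩ := h.merge_one hd hne' hdxy hl
    have hP1 : ∀ a b, φ1 a = φ1 b → P a = P b := by
      intro a b hab
      have hxy' := hQP x y hxy
      rcases p1 a b hab with h1 | ⟨h1, h2⟩ | ⟨h1, h2⟩
      · exact hP a b h1
      · rw [hP _ _ h1, hP _ _ h2, hxy']
      · rw [hP _ _ h1, hP _ _ h2, hxy']
    obtain ⟨φ2, T2, s2, q2, p2, n2⟩ := ih φ1 T1 _ (by omega) s1 hP1
    refine ⟨φ2, T2, s2.mono le_rfl le_rfl ?_, q2, p2, n2.trans n1.le⟩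
    have h1 : (ncl φ1 : ℝ) + 1 ≤ ncl φ := by exact_mod_cast n1
    nlinarith

theorem St.merge_range [Nonempty V] {d : V → V → ℝ} (hd : IsPM d) {c : ℕ → V → V}
    {s0 r l c0 : ℝ} (hs0 : 0 < s0) (hr : 0 ≤ r)
    (hmono : ∀ i u v, c i u = c i v → c (i + 1) u = c (i + 1) v)
    (hconn : ∀ i u v, c i u = c i v →
      Relation.ReflTransGen (fun a b => c i a = c i b ∧ d a b ≤ s0 * 2 ^ i) u v)
    (i0 m : ℕ) (hl : s0 * 2 ^ (i0 + m) + 2 * r ≤ l) {φ : V → V} {T : V → Tr V}
    (h : St d φ T r l c0) (hP : ∀ a b, φ a = φ b → c (i0 + m) a = c (i0 + m) b) :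
    ∃ φ' T', St d φ' T' r l (c0 + (s0 * 2 ^ i0 + 2 * r) * ((ncl φ : ℝ) - 1) +
        2 * ∑ i ∈ range m, s0 * 2 ^ (i0 + i) * ((ncl (c (i0 + i)) : ℝ) - 1)) ∧
      ∀ a b, φ' a = φ' b ↔ c (i0 + m) a = c (i0 + m) b := by
  have hle : ∀ i j, i ≤ j → ∀ u v, c i u = c i v → c j u = c j v := by
    intro i j hij u v huv
    induction j, hij using Nat.le_induction with
    | base => exact huv
    | succ j _ ih => exact hmono j u v ih
  have hpow : ∀ k, k ≤ m → s0 * 2 ^ (i0 + k) + 2 * r ≤ l := by
    intro k hk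
    have : (2 : ℝ) ^ (i0 + k) ≤ 2 ^ (i0 + m) := pow_le_pow_right₀ (by norm_num) (by omega)
    nlinarith
  have key : ∀ k, k ≤ m → ∃ φ' T', St d φ' T' r l (c0 + s0 * 2 ^ i0 * ((ncl φ : ℝ) - 1) +
        2 * ∑ i ∈ range k, s0 * 2 ^ (i0 + i) * ((ncl (c (i0 + i)) : ℝ) - 1) +
        2 * r * ((ncl φ : ℝ) - ncl φ')) ∧
      (∀ a b, c (i0 + k) a = c (i0 + k) b → φ' a = φ' b) ∧
      (∀ a b, φ' a = φ' b → c (i0 + m) a = c (i0 + m) b) := by
    intro k
    induction k with
    | zero =>
      intro _
      have hp : 0 < s0 * 2 ^ i0 := by positivity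
      obtain ⟨φ', T', s1, q1, p1, -⟩ := St.merge_all hd (hconn i0)
        (hle i0 (i0 + m) (by omega)) (by linarith) (hpow 0 (by omega)) _ φ T c0 le_rfl h hP
      refine ⟨φ', T', s1.mono le_rfl le_rfl ?_, q1, p1⟩
      have h1 : (1 : ℝ) ≤ ncl φ' := by exact_mod_cast one_le_ncl φ'
      simp only [range_zero, sum_empty]
      nlinarith
    | succ k ih =>
      intro hk
      obtain ⟨φ1, T1, s1, q1, p1⟩ := ih (by omega)
      have hp : 0 < s0 * 2 ^ (i0 + k) := by positivity
      have hp2 : s0 * 2 ^ (i0 + (k + 1)) = 2 * (s0 * 2 ^ (i0 + k)) := by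
        rw [← add_assoc, pow_succ]; ring
      obtain ⟨φ', T', s2, q2, p2, -⟩ := St.merge_all hd (hconn (i0 + (k + 1)))
        (hle _ (i0 + m) (by omega)) (by linarith) (hpow (k + 1) hk) _ φ1 T1 _ le_rfl s1 p1
      refine ⟨φ', T', s2.mono le_rfl le_rfl ?_, q2, p2⟩
      have h1 : (1 : ℝ) ≤ ncl φ' := by exact_mod_cast one_le_ncl φ'
      have h2 : (ncl φ1 : ℝ) ≤ ncl (c (i0 + k)) := by exact_mod_cast ncl_le_of q1
      rw [sum_range_succ, hp2]
      nlinarith
  obtain ⟨φ', T', s1, q1, p1⟩ := key m le_rfl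
  refine ⟨φ', T', s1.mono le_rfl le_rfl ?_, fun a b => ⟨p1 a b, q1 a b⟩⟩
  have h1 : (1 : ℝ) ≤ ncl φ' := by exact_mod_cast one_le_ncl φ'
  nlinarith

end Crest.Agent.X37.Geo
end

-- ▼ part X37/Geo/Step
section

/-!
X37 geometry: the saving step.  Surgery on the red trees, detached components are hung on blue
trees.
-/

set_option autoImplicit false

namespace Crest.Agent.X37.Geo

open Finset

variable {V : Type} [Fintype V] [DecidableEq V]

theorem attach_list {d : V → V → ℝ} (hd : IsPM d) {l lam : ℝ} (hl : lam ≤ l) (ok : V → Prop) :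
    ∀ (L : List (Tr V)) (T : V → Tr V), (∀ j, (T j).Bdd d l) →
      (∀ D ∈ L, D.Bdd d l ∧ ∃ j, ok j ∧ ∃ y z, D.Mem y ∧ (T j).Mem z ∧ d z y ≤ lam) →
      ∃ T' : V → Tr V, (∀ j, (T' j).Bdd d l) ∧ (∀ j z, (T j).Mem z → (T' j).Mem z) ∧
        (∀ D ∈ L, ∃ j, ok j ∧ ∀ y, D.Mem y → (T' j).Mem y) ∧
        ∑ j, (T' j).cost d ≤ ∑ j, (T j).cost d + lcost d lam L := by
  intro L
  induction L with
  | nil =>
    intro T hT _
    exact ⟨T, hT, fun _ _ h => h, fun D hD => absurd hD List.not_mem_nil, by simp [lcost]⟩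
  | cons D L ih =>
    intro T hT hL
    obtain ⟨T1, b1, m1, o1, c1⟩ := ih T hT fun D' hD' => hL D' (List.mem_cons_of_mem _ hD')
    obtain ⟨hD, j, hj, y, z, hy, hz, hyz⟩ := hL D List.mem_cons_self
    obtain ⟨U, hU1, hU2, hU3⟩ := Tr.link hd (m1 j z hz) hy (b1 j) hD (hyz.trans hl)
    have hm : ∀ i z, (T1 i).Mem z → (Function.update T1 j U i).Mem z := by
      intro i w hw
      by_cases h : i = j
      · subst h; rw [Function.update_self]; exact (hU1 w).2 (Or.inl hw)
      · rwa [Function.update_of_ne h]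
    refine ⟨Function.update T1 j U, fun i => ?_, fun i z hz => hm i z (m1 i z hz), ?_, ?_⟩
    · by_cases h : i = j
      · subst h; rwa [Function.update_self]
      · rw [Function.update_of_ne h]; exact b1 i
    · intro D' hD'
      rcases List.mem_cons.1 hD' with rfl | h
      · refine ⟨j, hj, fun w hw => ?_⟩
        rw [Function.update_self]; exact (hU1 w).2 (Or.inr hw)
      · obtain ⟨i, hi, h'⟩ := o1 D' h
        exact ⟨i, hi, fun w hw => hm i w (h' w hw)⟩
    · rw [sum_update_cost, lcost_cons, hU2]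
      linarith

theorem attach_all {d : V → V → ℝ} (hd : IsPM d) {l lam : ℝ} (hl : lam ≤ l) (ok : V → V → Prop)
    (L : V → List (Tr V)) (T : V → Tr V) (hT : ∀ j, (T j).Bdd d l) (I : Finset V) :
    (∀ i ∈ I, ∀ D ∈ L i, D.Bdd d l ∧ ∃ j, ok i j ∧ ∃ y z, D.Mem y ∧ (T j).Mem z ∧ d z y ≤ lam) →
      ∃ T' : V → Tr V, (∀ j, (T' j).Bdd d l) ∧ (∀ j z, (T j).Mem z → (T' j).Mem z) ∧
        (∀ i ∈ I, ∀ D ∈ L i, ∃ j, ok i j ∧ ∀ y, D.Mem y → (T' j).Mem y) ∧
        ∑ j, (T' j).cost d ≤ ∑ j, (T j).cost d + ∑ i ∈ I, lcost d lam (L i) := by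
  induction I using Finset.induction_on with
  | empty =>
    intro _
    exact ⟨T, hT, fun _ _ h => h, fun i hi => absurd hi (notMem_empty i), by simp⟩
  | insert i I hi ih =>
    intro hL
    obtain ⟨T1, b1, m1, o1, c1⟩ := ih fun i' hi' => hL i' (mem_insert_of_mem hi')
    obtain ⟨T2, b2, m2, o2, c2⟩ := attach_list hd hl (ok i) (L i) T1 b1 fun D hD => by
      obtain ⟨h1, j, hj, y, z, hy, hz, hyz⟩ := hL i (mem_insert_self _ _) D hD
      exact ⟨h1, j, hj, y, z, hy, m1 j z hz, hyz⟩
    refine ⟨T2, b2, fun j z hz => m2 j z (m1 j z hz), fun i' hi' D hD => ?_, ?_⟩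
    · rcases mem_insert.1 hi' with rfl | h
      · exact o2 D hD
      · obtain ⟨j, hj, h'⟩ := o1 i' h D hD
        exact ⟨j, hj, fun y hy => m2 j y (h' y hy)⟩
    · rw [sum_insert hi]; linarith

/-- **The saving step.** -/
theorem St.save [Nonempty V] {d : V → V → ℝ} (hd : IsPM d) {φ P : V → V} {T : V → Tr V}
    {r t c δ : ℝ} (ht : 0 < t) (hδ : 0 < δ) (hδ1 : δ ≤ 1) (hr : r ≤ δ * t / 4)
    (h : St d φ T r (2 * t) c) (hP : ∀ a b, φ a = φ b → P a = P b) (Z : Finset V)
    (hZ : ∀ x ∈ Z, ∀ y ∈ Z, x ≠ y → δ * t ≤ d x y)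
    (hy : ∀ x ∈ Z, ∃ y, d x y ≤ t ∧ φ x ≠ φ y ∧ P x = P y) :
    ∃ φ' T', St d φ' T' (r + 18 * t) (4 * t)
        (c - δ * t * Z.card / 144 + t * ((ncl φ : ℝ) - 1)) ∧
      (∀ a b, φ' a = φ' b → P a = P b) ∧ ncl φ' ≤ ncl φ := by
  classical
  choose! y hy1 hy2 hy3 using hy
  obtain ⟨red, hred⟩ := exists_colouring Z φ (fun x => φ (y x)) hy2
  set A := Z.filter fun p => red (φ p) = true ∧ red (φ (y p)) = false with hA
  set I := A.image φ with hI
  have hAZ : ∀ p ∈ A, p ∈ Z := fun p hp => (mem_filter.1 hp).1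
  have hblue : ∀ p ∈ A, φ (y p) ∉ I := by
    intro p hp hi
    obtain ⟨p', hp', he⟩ := mem_image.1 hi
    have h1 := (mem_filter.1 hp').2.1
    have h2 := (mem_filter.1 hp).2.2
    rw [he, h2] at h1
    exact Bool.false_ne_true h1
  have hsep : ∀ i, ∀ p ∈ A.filter (fun p => φ p = i), ∀ q ∈ A.filter (fun p => φ p = i), p ≠ q →
      2 * (δ * t / 2) ≤ d p q := by
    intro i p hp q hq hne
    have := hZ p (hAZ p (mem_filter.1 hp).1) q (hAZ q (mem_filter.1 hq).1) hne
    linarith
  have hδt : 0 < δ * t := by positivity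
  have hδt1 : δ * t ≤ t := by nlinarith
  have hs := fun i => surgery (d := d) (μ := tmu d (δ * t / 2) (A.filter fun p => φ p = i))
    (near := fun x => ∃ p ∈ A.filter (fun p => φ p = i), d x p < δ * t / 2) (t := 2 * t) hd
    (by linarith) (tmu_le hd (hsep i)) (fun x y hxy => tmu_near hxy) (T i) (h.bdd i)
  choose K L k1 k2 k3 k4 using hs
  have hT1 : ∀ j, (if j ∈ I then K j else T j).Bdd d (4 * t) := by
    intro j
    split_ifs
    · exact (k1 j).mono (by linarith)
    · exact (h.bdd j).mono (by linarith)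
  obtain ⟨T', b', m', o', c'⟩ := attach_all hd (l := 4 * t) (lam := 2 * (2 * t)) (by linarith)
    (fun i j => ∃ p w, φ p = i ∧ φ w = j ∧ P p = P w) L (fun j => if j ∈ I then K j else T j)
    hT1 I (by
      intro i _ D hD
      obtain ⟨h1, x, hx, p, hp, hxp⟩ := k2 i D hD
      obtain ⟨hpA, hpi⟩ := mem_filter.1 hp
      obtain ⟨z, hz, hz'⟩ := h.cov (y p)
      refine ⟨h1.mono (by linarith), φ (y p), ⟨p, y p, hpi, rfl, hy3 p (hAZ p hpA)⟩, x, z, hx,
        by simpa only [if_neg (hblue p hpA)] using hz, ?_⟩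
      have h2 := hy1 p (hAZ p hpA)
      have h3 := hd.tri z (y p) x
      have h4 := hd.tri (y p) p x
      rw [hd.symm z (y p)] at h3
      rw [hd.symm (y p) p, hd.symm p x] at h4
      linarith)
  have hcov : ∀ v, ∃ w, P v = P w ∧ ∃ x, (T' (φ w)).Mem x ∧ d v x ≤ r + 18 * t := by
    intro v
    obtain ⟨x, hx, hvx⟩ := h.cov v
    by_cases hi : φ v ∈ I
    · rcases k3 (φ v) x hx with ⟨z, hz, hxz⟩ | ⟨D, hD, z, hz, hxz⟩
      · refine ⟨v, rfl, z, m' _ z (by simpa only [if_pos hi] using hz), ?_⟩
        have := hd.tri v x z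
        linarith
      · obtain ⟨j, ⟨p, w, h1, h2, h3⟩, h4⟩ := o' _ hi D hD
        refine ⟨w, (hP _ _ h1).symm.trans h3, z, h2 ▸ h4 z hz, ?_⟩
        have := hd.tri v x z
        linarith
    · exact ⟨v, rfl, x, m' _ x (by simpa only [if_neg hi] using hx), by linarith⟩
  choose w hw1 hw2 using hcov
  refine ⟨fun v => φ (w v), T', ⟨hw2, b', c'.trans ?_⟩,
    fun a b hab => (hw1 a).trans ((hP _ _ hab).trans (hw1 b).symm), ?_⟩
  · have e1 : ∑ j, (if j ∈ I then K j else T j).cost d =
        ∑ j, (T j).cost d - ∑ j ∈ I, ((T j).cost d - (K j).cost d) := by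
      rw [← sum_ite_mem_eq I (fun j => (T j).cost d - (K j).cost d), ← sum_sub_distrib]
      refine sum_congr rfl fun j _ => ?_
      split_ifs <;> ring
    have e2 : ∑ j ∈ I, (lcost d (2 * (2 * t)) (L j) +
        (δ * t / 36 * ((A.filter fun p => φ p = j).card : ℝ) - t)) ≤
        ∑ j ∈ I, ((T j).cost d - (K j).cost d) := by
      refine sum_le_sum fun j _ => ?_
      have h1 := k4 j
      have h2 := tmu_cost hd (by linarith) (hsep j) (T j) (by
        intro p hp
        obtain ⟨x, hx, hpx⟩ := h.cov p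
        exact ⟨x, (mem_filter.1 hp).2 ▸ hx, by linarith⟩)
      linarith
    have e3 : ∑ j ∈ I, ((A.filter fun p => φ p = j).card : ℝ) = A.card := by
      exact_mod_cast (card_eq_sum_card_image φ A).symm
    have e4 : (I.card : ℝ) ≤ (ncl φ : ℝ) - 1 := by
      have : I.card < ncl φ := by
        rcases A.eq_empty_or_nonempty with h0 | ⟨p, hp⟩
        · rw [hI, h0]; exact one_le_ncl φ
        · exact card_lt_card ⟨image_subset_image (subset_univ _),
            fun hc => hblue p hp (hc (mem_image_of_mem _ (mem_univ _)))⟩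
      have h1 : (I.card : ℝ) + 1 ≤ ncl φ := by exact_mod_cast this
      linarith
    have e5 : (Z.card : ℝ) ≤ 4 * A.card := by exact_mod_cast hred
    rw [sum_add_distrib, sum_sub_distrib, ← mul_sum, e3, sum_const, nsmul_eq_mul] at e2
    have e6 := h.cost
    have e7 := mul_le_mul_of_nonneg_left e4 ht.le
    have e8 := mul_le_mul_of_nonneg_left e5 hδt.le
    rw [e1]
    linarith
  · refine card_le_card fun i hi => ?_
    obtain ⟨v, -, rfl⟩ := mem_image.1 hi
    exact mem_image_of_mem _ (mem_univ _)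

end Crest.Agent.X37.Geo
end

-- ▼ part X37/Geo/Claim
section

/-!
X37 geometry: the Steiner-potential CLAIM of Lemma B.
-/

set_option autoImplicit false

namespace Crest.Agent.X37.Geo

open Finset

theorem claim_of_le {C : ℝ} (hC : 5760 ≤ C) : LB.Claim C := by
  intro V _ _ _ d c s0 del p q J Z h1 h2 h3 hs0 hdel hdel1 hp _ hc0 hmono hconn hsep hpart
  have hd : IsPM d := ⟨h1, h2, h3⟩
  have hn : ∀ f : V → V, LB.ncl f = (ncl f : ℝ) - 1 := fun _ => rfl
  have hn0 : ∀ f : V → V, 0 ≤ LB.ncl f := by
    intro f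
    have : (1 : ℝ) ≤ ncl f := by exact_mod_cast one_le_ncl f
    rw [hn]; linarith
  have hle : ∀ i j, i ≤ j → ∀ u v, c i u = c i v → c j u = c j v := by
    intro i j hij u v huv
    induction j, hij using Nat.le_induction with
    | base => exact huv
    | succ j _ ih => exact hmono j u v ih
  have key : ∀ j : ℕ, ∃ φ T, St d φ T (del * (s0 * 2 ^ (j * p + q)) / 4)
      (2 * (s0 * 2 ^ (j * p + q)))
      (2 * ∑ i ∈ range (j * p), s0 * 2 ^ i * LB.ncl (c i) +
        40 * ∑ k ∈ range j, s0 * 2 ^ (k * p + q) * LB.ncl (c (k * p)) -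
        del / 144 * ∑ k ∈ range j, s0 * 2 ^ (k * p + q) * ((Z k).card : ℝ)) ∧
      ∀ a b, φ a = φ b ↔ c (j * p) a = c (j * p) b := by
    intro j
    induction j with
    | zero =>
      refine ⟨id, Tr.pt, ⟨fun v => ⟨v, rfl, ?_⟩, fun _ => trivial, by simp [Tr.cost]⟩,
        fun a b => ⟨fun h => by rw [show a = b from h], fun h => hc0 a b (by simpa using h)⟩⟩
      rw [h1]; positivity
    | succ j ih =>
      obtain ⟨φ, T, st, hφ⟩ := ih
      set t : ℝ := s0 * 2 ^ (j * p + q) with ht
      have ht0 : 0 < t := by positivity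
      have hpw : (0 : ℝ) < 2 ^ p := by positivity
      have e1 : s0 * 2 ^ ((j + 1) * p + q) = t * 2 ^ p := by
        rw [ht, show (j + 1) * p + q = j * p + q + p by ring, pow_add]; ring
      have e2 : s0 * 2 ^ (j * p) ≤ t := by
        have : (2 : ℝ) ^ (j * p) ≤ 2 ^ (j * p + q) := pow_le_pow_right₀ (by norm_num) (by omega)
        rw [ht]; nlinarith
      have e3 : s0 * 2 ^ (j * p + p) ≤ t * 2 ^ p := by
        rw [pow_add, ← mul_assoc]; exact mul_le_mul_of_nonneg_right e2 hpw.le
      have e4 : 5760 * t ≤ del * (t * 2 ^ p) := by nlinarith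
      have e5 : del * (t * 2 ^ p) ≤ t * 2 ^ p := by
        have : 0 < t * 2 ^ p := by positivity
        nlinarith
      have e6 : del * t ≤ t := by nlinarith
      have e7 : 0 < del * t := by positivity
      have ej : (j + 1) * p = j * p + p := by ring
      obtain ⟨φ1, T1, s1, p1, n1⟩ := St.save hd (P := c ((j + 1) * p)) ht0 hdel hdel1 le_rfl st
        (fun a b h => hle _ _ (by rw [ej]; omega) a b ((hφ a b).1 h)) (Z j) (hsep j) (by
          intro x hx
          obtain ⟨y, y1, y2, y3⟩ := hpart j x hx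
          exact ⟨y, y1, fun h => y2 ((hφ x y).1 h), y3⟩)
      obtain ⟨φ2, T2, s2, p2⟩ := St.merge_range hd hs0 (l := 2 * (t * 2 ^ p)) (by linarith) hmono
        hconn (j * p) p (by linarith) (s1.mono le_rfl (by linarith) le_rfl) (by rw [← ej]; exact p1)
      refine ⟨φ2, T2, ?_, by rw [ej]; exact p2⟩
      rw [e1]
      refine s2.mono (by linarith) le_rfl ?_
      have n2 : ncl φ ≤ ncl (c (j * p)) := ncl_le_of fun a b h => (hφ a b).2 h
      have n3 : (ncl φ : ℝ) - 1 ≤ LB.ncl (c (j * p)) := by
        have : (ncl φ : ℝ) ≤ ncl (c (j * p)) := by exact_mod_cast n2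
        rw [hn]; linarith
      have n4 : (ncl φ1 : ℝ) - 1 ≤ LB.ncl (c (j * p)) := by
        have : (ncl φ1 : ℝ) ≤ ncl φ := by exact_mod_cast n1
        linarith
      have n5 : (0 : ℝ) ≤ (ncl φ1 : ℝ) - 1 := hn0 φ1
      have n6 := hn0 (c (j * p))
      have f1 : (s0 * 2 ^ (j * p) + 2 * (del * t / 4 + 18 * t)) * ((ncl φ1 : ℝ) - 1) ≤
          39 * t * LB.ncl (c (j * p)) :=
        mul_le_mul (by linarith) n4 n5 (by linarith)
      have f2 := mul_le_mul_of_nonneg_left n3 ht0.le
      rw [sum_range_succ, sum_range_succ, ej, sum_range_add, ← ht]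
      simp only [← hn]
      simp only [← hn] at f1 f2
      linarith
  obtain ⟨φ, T, st, -⟩ := key J
  have k1 := (sum_nonneg fun i _ => Tr.cost_nonneg hd.nonneg (T i)).trans st.cost
  have k2 : 0 ≤ ∑ i ∈ range (J * p), s0 * 2 ^ i * LB.ncl (c i) :=
    sum_nonneg fun i _ => mul_nonneg (by positivity) (hn0 _)
  have k3 : 0 ≤ ∑ k ∈ range J, s0 * 2 ^ (k * p + q) * LB.ncl (c (k * p)) :=
    sum_nonneg fun i _ => mul_nonneg (by positivity) (hn0 _)
  rw [div_mul_eq_mul_div, le_div_iff₀ hdel]
  nlinarith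

/-- **The geometric CLAIM of Lemma B.** -/
theorem claim : LB.Claim 6000 := claim_of_le (by norm_num)

end Crest.Agent.X37.Geo
end

-- ▼ part X37/Gr/Greedy
section

/-!
# Row 37: consequences of the greedy specification
-/

set_option autoImplicit false
set_option linter.unusedSectionVars false

namespace Crest.Agent.X37

open Finset

variable {V E : Type} [DecidableEq V] {src tgt : E → V} {k : ℕ} {A B F G : Finset E}
  {S T : Finset V}

theorem Sparse.mono (h : Sparse src tgt k F) (hA : A ⊆ F) : Sparse src tgt k A := fun S hS =>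
  le_trans (Nat.add_le_add_right (Finset.card_le_card (inside_mono hA Subset.rfl)) k) (h S hS)

theorem Tight.mono (h : Tight src tgt k A S) (hA : A ⊆ F) : Tight src tgt k F S :=
  le_trans h (Nat.add_le_add_right (Finset.card_le_card (inside_mono hA Subset.rfl)) k)

theorem sparse_empty : Sparse src tgt k (∅ : Finset E) := fun S hS => by
  have : 1 ≤ S.card := Finset.card_pos.2 hS
  simpa [inside] using Nat.le_mul_of_pos_right k this

/-- the edges inside `S` cross the labelling or lie inside a part -/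
theorem card_inside_le_add_sum {ι : Type} [DecidableEq ι] (f : V → ι) :
    (inside src tgt A S).card ≤ (cross src tgt A S f).card +
      ∑ c ∈ S.image f, (inside src tgt A (S.filter fun v => f v = c)).card := by
  classical
  refine le_trans (Finset.card_le_card (t := cross src tgt A S f ∪ (S.image f).biUnion
    fun c => inside src tgt A (S.filter fun v => f v = c)) fun e he => ?_)
    ((Finset.card_union_le _ _).trans (Nat.add_le_add_left Finset.card_biUnion_le _))
  obtain ⟨h1, h2, h3⟩ := mem_inside.1 he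
  by_cases h : f (src e) = f (tgt e)
  · exact Finset.mem_union_right _ (Finset.mem_biUnion.2 ⟨_, Finset.mem_image_of_mem f h3,
      mem_inside.2 ⟨h1, Finset.mem_filter.2 ⟨h2, h⟩, Finset.mem_filter.2 ⟨h3, rfl⟩⟩⟩)
  · exact Finset.mem_union_left _ (mem_cross.2 ⟨h1, h2, h3, h⟩)

/-- a tight set of a sparse graph is partition-connected -/
theorem Sparse.pcOn (h : Sparse src tgt k F) (hS : Tight src tgt k F S) :
    PCOn src tgt (k : ℝ) F S := fun f => by
  have h1 := card_inside_le_add_sum (src := src) (tgt := tgt) (A := F) (S := S) f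
  have h2 : ∑ c ∈ S.image f, ((inside src tgt F (S.filter fun v => f v = c)).card + k)
      ≤ ∑ c ∈ S.image f, k * (S.filter fun v => f v = c).card :=
    Finset.sum_le_sum fun c hc => h _ (by
      obtain ⟨v, hv, rfl⟩ := Finset.mem_image.1 hc
      exact ⟨v, Finset.mem_filter.2 ⟨hv, rfl⟩⟩)
  rw [Finset.sum_add_distrib, ← Finset.mul_sum,
    ← Finset.card_eq_sum_card_fiberwise (fun v hv => Finset.mem_image_of_mem f hv),
    Finset.sum_const, smul_eq_mul] at h2
  have h3 : k * (S.image f).card ≤ (cross src tgt F S f).card + k := by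
    unfold Tight at hS
    rw [mul_comm] at h2
    omega
  have h4 : (k : ℝ) * (S.image f).card ≤ (cross src tgt F S f).card + k := by exact_mod_cast h3
  linarith

/-- a partition-connected set is tight -/
theorem PCOn.tight (h : PCOn src tgt (k : ℝ) F S) : Tight src tgt k F S := by
  have h1 := h id
  rw [Finset.image_id] at h1
  have h2 : ((cross src tgt F S id).card : ℝ) ≤ (inside src tgt F S).card :=
    Nat.cast_le.2 (Finset.card_le_card (cross_subset_inside _))
  have h3 : (k : ℝ) * S.card ≤ (inside src tgt F S).card + k := by linarith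
  unfold Tight
  exact_mod_cast h3

/-- an edge of a sparse graph is not spanned by the other edges -/
theorem Sparse.not_rel (h : Sparse src tgt k F) (hA : A ⊆ F) {e : E} (he : e ∈ F) (heA : e ∉ A) :
    ¬ Rel src tgt (k : ℝ) A (src e) (tgt e) := by
  classical
  rintro ⟨S, h1, h2, h3⟩
  have h4 := h3.tight
  have h5 := h S ⟨_, h1⟩
  have h6 : (insert e (inside src tgt A S)).card ≤ (inside src tgt F S).card :=
    Finset.card_le_card (Finset.insert_subset (mem_inside.2 ⟨he, h1, h2⟩)
      (inside_mono hA Subset.rfl))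
  rw [Finset.card_insert_of_notMem fun h7 => heA (mem_inside.1 h7).1] at h6
  unfold Tight at h4
  omega

/-- a sparse graph has no loop -/
theorem Sparse.ne (h : Sparse src tgt k F) {e : E} (he : e ∈ F) : src e ≠ tgt e := fun h1 =>
  h.not_rel (Finset.empty_subset F) he (Finset.notMem_empty e) (h1 ▸ Rel.refl _)

variable [Fintype V]

/-- edges spanned by `B` do not change the classes -/
theorem Rel.of_spanned {c : ℝ} (hB : ∀ e ∈ A, e ∉ B → Rel src tgt c B (src e) (tgt e)) {u v : V}
    (h : Rel src tgt c A u v) : Rel src tgt c B u v := by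
  obtain ⟨S, h1, h2, h3⟩ := h
  by_contra hn
  have h4 : 2 ≤ (S.image (cls src tgt c B)).card := Finset.one_lt_card.2
    ⟨_, Finset.mem_image_of_mem _ h1, _, Finset.mem_image_of_mem _ h2,
      fun e => hn (cls_eq_iff.1 e)⟩
  have h5 := card_cross_cls_lt h4
  have h6 := h3 (cls src tgt c B)
  have h7 : ((cross src tgt A S (cls src tgt c B)).card : ℝ)
      ≤ (cross src tgt B S (cls src tgt c B)).card := by
    refine Nat.cast_le.2 (Finset.card_le_card fun e he => ?_)
    obtain ⟨h8, h9, h10, h11⟩ := mem_cross.1 he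
    refine mem_cross.2 ⟨?_, h9, h10, h11⟩
    by_contra h12
    exact h11 (cls_eq_iff.2 (hB e h8 h12))
  linarith

variable {α : Type} [LinearOrder α] {l : E → α}

omit [Fintype V] in
/-- a rejected edge is spanned by every set of accepted edges containing the shorter ones -/
theorem IsGreedy.rel_of_notMem (h : IsGreedy src tgt k l G F) {e : E} (he : e ∈ G) (heF : e ∉ F)
    (hB : B ⊆ F) (hB' : ∀ f ∈ F, l f ≤ l e → f ∈ B) : Rel src tgt (k : ℝ) B (src e) (tgt e) := by
  obtain ⟨S, h1, h2, h3⟩ := h.tight e he heF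
  exact ⟨S, h1, h2, (h.sparse.mono hB).pcOn (h3.mono fun f hf =>
    hB' f (Finset.mem_filter.1 hf).1 (Finset.mem_filter.1 hf).2)⟩

/-- the classes of a down-closed part of `G` are those of its accepted edges -/
theorem IsGreedy.rel_filter (h : IsGreedy src tgt k l G F) (p : E → Prop) [DecidablePred p]
    (hp : ∀ e f, p e → l f ≤ l e → p f) (hA : A ⊆ G) (hAp : ∀ e ∈ A, p e) {u v : V}
    (huv : Rel src tgt (k : ℝ) A u v) : Rel src tgt (k : ℝ) (F.filter p) u v :=
  huv.of_spanned fun e he heF => h.rel_of_notMem (hA he)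
    (fun h1 => heF (Finset.mem_filter.2 ⟨h1, hAp e he⟩)) (Finset.filter_subset _ _)
    fun f hf h2 => Finset.mem_filter.2 ⟨hf, hp e f (hAp e he) h2⟩

/-- (P5) an accepted edge is not spanned by strictly shorter edges of `G` -/
theorem IsGreedy.not_rel (h : IsGreedy src tgt k l G F) {e : E} (he : e ∈ F) (hA : A ⊆ G)
    (hl : ∀ a ∈ A, l a < l e) : ¬ Rel src tgt (k : ℝ) A (src e) (tgt e) := fun h1 =>
  h.sparse.not_rel (Finset.filter_subset (fun f => l f < l e) F) he (by simp)
    (h.rel_filter (fun f => l f < l e) (fun _ _ h2 h3 => lt_of_le_of_lt h3 h2) hA hl h1)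

/-- (P5) with a threshold -/
theorem IsGreedy.not_rel_filter (h : IsGreedy src tgt k l G F) {e : E} (he : e ∈ F) {s : α}
    (hs : s < l e) : ¬ Rel src tgt (k : ℝ) (G.filter fun f => l f ≤ s) (src e) (tgt e) :=
  h.not_rel he (Finset.filter_subset _ _) fun _ ha => (Finset.mem_filter.1 ha).2.trans_lt hs


/-- the accepted edges have the classes of `G` -/
theorem IsGreedy.rel_iff (h : IsGreedy src tgt k l G F) {u v : V} :
    Rel src tgt (k : ℝ) F u v ↔ Rel src tgt (k : ℝ) G u v :=
  ⟨fun h1 => h1.mono h.subset, fun h1 => h1.of_spanned fun _ he heF =>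
    h.rel_of_notMem he heF Subset.rfl fun _ hf _ => hf⟩

/-- the accepted edges of a `k`-partition-connected graph are `k`-partition-connected -/
theorem IsGreedy.pc [Nonempty V] (h : IsGreedy src tgt k l G F) (hG : PC src tgt (k : ℝ) G) :
    PC src tgt (k : ℝ) F := pc_of_rel fun u v => h.rel_iff.2 (hG.rel u v)



omit [Fintype V] in
/-- change of the length scale (for instance the cast `ℚ → ℝ`) -/
theorem IsGreedy.congr {β : Type} [LinearOrder β] {l' : E → β} (h : IsGreedy src tgt k l G F)
    (hl : ∀ e ∈ G, ∀ f ∈ G, l f ≤ l e → l' f ≤ l' e) : IsGreedy src tgt k l' G F :=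
  ⟨h.subset, h.sparse, fun e he heF => by
    obtain ⟨S, h1, h2, h3⟩ := h.tight e he heF
    exact ⟨S, h1, h2, h3.mono fun f hf => Finset.mem_filter.2 ⟨(Finset.mem_filter.1 hf).1,
      hl e he f (h.subset (Finset.mem_filter.1 hf).1) (Finset.mem_filter.1 hf).2⟩⟩⟩

omit [Fintype V] in
theorem IsGreedy.cast {l : E → ℚ} (h : IsGreedy src tgt k l G F) :
    IsGreedy src tgt k (fun e => (l e : ℝ)) G F :=
  h.congr fun _ _ _ _ h1 => by exact_mod_cast h1

end Crest.Agent.X37
end

-- ▼ part X37/Gr/Loop
section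

/-!
# Row 37: the greedy loop over an independence test
-/

set_option autoImplicit false

namespace Crest.Agent.X37.Gr

open Finset Crest.Agent.Lib.PT Crest.Agent.X37.IO

/-- the number of edges of the list with both ends in `S` -/
def insL (F : List (ℕ × ℕ)) (S : Finset ℕ) : ℕ := F.countP fun e => decide (e.1 ∈ S ∧ e.2 ∈ S)

/-- `t F u v` decides whether the edge `u v` can be added to the sparse list `F` -/
def TestSpec (n k : ℕ) (t : List (ℕ × ℕ) → ℕ → ℕ → Bool) : Prop :=
  ∀ (F : List (ℕ × ℕ)) (u v : ℕ), Loopless n F → u < n → v < n → u ≠ v →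
    (∀ S ⊆ range n, S.Nonempty → insL F S + k ≤ k * S.card) →
    (t F u v = true ↔ ∀ S ⊆ range n, u ∈ S → v ∈ S → insL F S + 1 + k ≤ k * S.card)

/-- the edges with the given indices -/
def pick (es : List (ℕ × ℕ)) (acc : List ℕ) : List (ℕ × ℕ) := acc.map fun j => es.getD j (0, 0)

/-- one round: try the edge with index `i` -/
def gstep (t : List (ℕ × ℕ) → ℕ → ℕ → Bool) (es : List (ℕ × ℕ)) (acc : List ℕ) (i : ℕ) : List ℕ :=
  if t (pick es acc) (es.getD i (0, 0)).1 (es.getD i (0, 0)).2 = true then i :: acc else acc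

/-- the accepted indices, for the processing order given by `r` -/
def greedyI (t : List (ℕ × ℕ) → ℕ → ℕ → Bool) (es : List (ℕ × ℕ)) (r : ℕ → ℕ → Prop)
    [DecidableRel r] : List ℕ :=
  ((List.range es.length).insertionSort r).foldl (gstep t es) []

/-- the accepted indices as a mask -/
def greedyM (t : List (ℕ × ℕ) → ℕ → ℕ → Bool) (es : List (ℕ × ℕ)) (r : ℕ → ℕ → Prop)
    [DecidableRel r] : List Bool :=
  (List.range es.length).map fun i => decide (i ∈ greedyI t es r)


/-- the set of edges with index in a list -/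
def idx (m : ℕ) (acc : List ℕ) : Finset (Fin m) := univ.filter fun e => (e : ℕ) ∈ acc

variable {n k : ℕ} {es : List (ℕ × ℕ)}

theorem mem_idx {m : ℕ} {acc : List ℕ} {e : Fin m} : e ∈ idx m acc ↔ (e : ℕ) ∈ acc := by
  simp [idx]

theorem idx_cons {m : ℕ} (acc : List ℕ) (e : Fin m) :
    idx m ((e : ℕ) :: acc) = insert e (idx m acc) := by
  ext f; simp [mem_idx, Fin.val_inj]

theorem getD_fst (h : Loopless n es) (e : Fin es.length) :
    (es.getD e (0, 0)).1 = srcF h e := by simp [srcF]

theorem getD_snd (h : Loopless n es) (e : Fin es.length) :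
    (es.getD e (0, 0)).2 = tgtF h e := by simp [tgtF]

theorem inside_insert {V E : Type} [DecidableEq V] [DecidableEq E] {src tgt : E → V}
    {A : Finset E} {e : E} (he : e ∉ A) (S : Finset V) :
    (inside src tgt (insert e A) S).card =
      (inside src tgt A S).card + if src e ∈ S ∧ tgt e ∈ S then 1 else 0 := by
  unfold inside
  rw [Finset.filter_insert]
  split_ifs with h1
  · rw [Finset.card_insert_of_notMem fun h2 => he (Finset.mem_filter.1 h2).1]
  · rfl

theorem insL_pick (h : Loopless n es) {acc : List ℕ} (h1 : acc.Nodup)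
    (h2 : ∀ j ∈ acc, j < es.length) (S : Finset (Fin n)) :
    insL (pick es acc) (vals S) = (inside (srcF h) (tgtF h) (idx es.length acc) S).card := by
  induction acc with
  | nil => simp [insL, pick, idx, inside]
  | cons j acc ih =>
    obtain ⟨h3, h4⟩ := List.nodup_cons.1 h1
    have h5 := ih h4 fun i hi => h2 i (List.mem_cons_of_mem _ hi)
    have h6 := idx_cons acc (⟨j, h2 j List.mem_cons_self⟩ : Fin es.length)
    rw [h6, inside_insert (by simpa [mem_idx] using h3), ← h5]
    have h7 := getD_fst h ⟨j, h2 j List.mem_cons_self⟩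
    have h8 := getD_snd h ⟨j, h2 j List.mem_cons_self⟩
    simp only [insL, pick, List.map_cons, List.countP_cons, decide_eq_true_eq] at h7 h8 ⊢
    rw [h7, h8]
    simp only [val_mem_vals]

theorem loopless_pick (h : Loopless n es) {acc : List ℕ} (h2 : ∀ j ∈ acc, j < es.length) :
    Loopless n (pick es acc) := h.sublist fun e he => by
  obtain ⟨j, hj, rfl⟩ := List.mem_map.1 he
  rw [List.getD_eq_getElem _ _ (h2 j hj)]
  exact List.getElem_mem _

theorem card_vals (S : Finset (Fin n)) : (vals S).card = S.card := Finset.card_map _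

/-- the test on index lists -/
theorem TestSpec.idx {t : List (ℕ × ℕ) → ℕ → ℕ → Bool} (ht : TestSpec n k t) (h : Loopless n es)
    {acc : List ℕ} (h1 : acc.Nodup) (h2 : ∀ j ∈ acc, j < es.length)
    (h3 : Sparse (srcF h) (tgtF h) k (idx es.length acc)) (e : Fin es.length) :
    t (pick es acc) (es.getD e (0, 0)).1 (es.getD e (0, 0)).2 = true ↔
      ∀ S, srcF h e ∈ S → tgtF h e ∈ S →
        (inside (srcF h) (tgtF h) (idx es.length acc) S).card + 1 + k ≤ k * S.card := by
  rw [getD_fst h, getD_snd h, ht _ _ _ (loopless_pick h h2) (srcF h e).2 (tgtF h e).2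
    (fun h4 => srcF_ne_tgtF h e (Fin.ext h4))]
  · constructor
    · intro h4 S h5 h6
      have := h4 (vals S) (vals_subset S) (val_mem_vals.2 h5) (val_mem_vals.2 h6)
      rwa [insL_pick h h1 h2, card_vals] at this
    · intro h4 S hS h5 h6
      obtain ⟨S, rfl⟩ := exists_vals hS
      rw [insL_pick h h1 h2, card_vals]
      exact h4 S (val_mem_vals.1 h5) (val_mem_vals.1 h6)
  · intro S hS h4
    obtain ⟨S, rfl⟩ := exists_vals hS
    rw [insL_pick h h1 h2, card_vals]
    exact h3 S (Finset.map_nonempty.1 h4)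

/-- the loop invariant after the indices `pre` -/
structure Inv {α : Type} [LinearOrder α] (h : Loopless n es) (k : ℕ) (key : ℕ → α)
    (pre acc : List ℕ) : Prop where
  nodup : acc.Nodup
  sub : ∀ j ∈ acc, j ∈ pre
  sparse : Sparse (srcF h) (tgtF h) k (idx es.length acc)
  tight : ∀ e : Fin es.length, (e : ℕ) ∈ pre → (e : ℕ) ∉ acc → ∃ S, srcF h e ∈ S ∧ tgtF h e ∈ S ∧
    Tight (srcF h) (tgtF h) k ((idx es.length acc).filter fun f => key f ≤ key e) S

theorem Inv.step {α : Type} [LinearOrder α] {h : Loopless n es} {key : ℕ → α}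
    {t : List (ℕ × ℕ) → ℕ → ℕ → Bool} (ht : TestSpec n k t) {pre acc : List ℕ}
    (hI : Inv h k key pre acc) (h2 : ∀ j ∈ pre, j < es.length) (e : Fin es.length)
    (he : (e : ℕ) ∉ pre) (hk : ∀ j ∈ pre, key j ≤ key e) :
    Inv h k key (pre ++ [(e : ℕ)]) (gstep t es acc e) := by
  have h3 := ht.idx h hI.nodup (fun j hj => h2 j (hI.sub j hj)) hI.sparse e
  have h4 : (e : ℕ) ∉ acc := fun h5 => he (hI.sub _ h5)
  unfold gstep
  split_ifs with h5
  · refine ⟨List.nodup_cons.2 ⟨h4, hI.nodup⟩, fun j hj => ?_, fun S hS => ?_, fun f h6 h7 => ?_⟩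
    · rcases List.mem_cons.1 hj with rfl | hj
      · simp
      · exact List.mem_append_left _ (hI.sub j hj)
    · rw [idx_cons, inside_insert (mem_idx.not.2 h4)]
      split_ifs with h6
      · exact h3.1 h5 S h6.1 h6.2
      · exact hI.sparse S hS
    · obtain ⟨h8, h9⟩ := not_or.1 (List.mem_cons.not.1 h7)
      obtain ⟨S, h10, h11, h12⟩ := hI.tight f (by simpa [h8] using h6) h9
      refine ⟨S, h10, h11, h12.mono (Finset.filter_subset_filter _ ?_)⟩
      rw [idx_cons]; exact Finset.subset_insert _ _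
  · refine ⟨hI.nodup, fun j hj => List.mem_append_left _ (hI.sub j hj), hI.sparse,
      fun f h6 h7 => ?_⟩
    rcases List.mem_append.1 h6 with h8 | h8
    · exact hI.tight f h8 h7
    · obtain rfl : f = e := Fin.ext (by simpa using h8)
      rw [h3] at h5
      push Not at h5
      obtain ⟨S, h9, h10, h11⟩ := h5
      refine ⟨S, h9, h10, ?_⟩
      rw [Finset.filter_true_of_mem (s := idx es.length acc)
        fun g hg => hk g (hI.sub _ (mem_idx.1 hg))]
      unfold Tight
      omega

theorem inv_foldl {α : Type} [LinearOrder α] (h : Loopless n es) {key : ℕ → α}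
    {t : List (ℕ × ℕ) → ℕ → ℕ → Bool} (ht : TestSpec n k t) (pre : List ℕ) (h1 : pre.Nodup)
    (h2 : ∀ j ∈ pre, j < es.length) (h3 : pre.Pairwise fun i j => key i ≤ key j) :
    Inv h k key pre (pre.foldl (gstep t es) []) := by
  induction pre using List.reverseRecOn with
  | nil => exact ⟨List.nodup_nil, by simp, by simpa [idx] using sparse_empty, by simp⟩
  | append_singleton pre j ih =>
    rw [List.foldl_append, List.foldl_cons, List.foldl_nil]
    obtain ⟨h4, -, h5⟩ := List.nodup_append.1 h1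
    obtain ⟨h6, -, h7⟩ := List.pairwise_append.1 h3
    have h8 : ∀ i ∈ pre, i < es.length := fun i hi => h2 i (List.mem_append_left _ hi)
    exact (ih h4 h8 h6).step ht h8 ⟨j, h2 j (by simp)⟩ (fun h9 => h5 j h9 j (by simp) rfl)
      fun i hi => h7 i hi j (by simp)

/-- **Correctness of the greedy loop.** -/
theorem greedyM_spec {α : Type} [LinearOrder α] (h : Loopless n es) (key : ℕ → α)
    {t : List (ℕ × ℕ) → ℕ → ℕ → Bool} (ht : TestSpec n k t) :
    IsGreedy (srcF h) (tgtF h) k (fun e => key e) univ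
      (univ.filter fun e : Fin es.length =>
        (greedyM t es fun i j => key i ≤ key j).getD e false = true) := by
  have hp := List.perm_insertionSort (fun i j => key i ≤ key j) (List.range es.length)
  have : Std.Total fun i j => key i ≤ key j := ⟨fun i j => le_total _ _⟩
  have : IsTrans ℕ fun i j => key i ≤ key j := ⟨fun _ _ _ => le_trans⟩
  have hI := inv_foldl h (key := key) ht _ (hp.nodup_iff.2 List.nodup_range)
    (fun j hj => List.mem_range.1 (hp.mem_iff.1 hj)) (List.pairwise_insertionSort _ _)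
  have e1 : (univ.filter fun e : Fin es.length =>
      (greedyM t es fun i j => key i ≤ key j).getD e false = true) =
      idx es.length (greedyI t es fun i j => key i ≤ key j) := by
    ext e; simp [greedyM, mem_idx]
  rw [e1]
  exact ⟨Finset.subset_univ _, hI.sparse, fun e _ he =>
    hI.tight e (hp.mem_iff.2 (List.mem_range.2 e.2)) (mem_idx.not.1 he)⟩

/-! ### Polynomial time -/

variable {β : Type} [Enc β]

theorem greedyM_pt {t : β → List (ℕ × ℕ) → ℕ → ℕ → Bool} {es : β → List (ℕ × ℕ)}
    {r : β → ℕ → ℕ → Prop} [∀ a, DecidableRel (r a)]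
    (ht : PT fun p : β × List (ℕ × ℕ) × ℕ × ℕ => t p.1 p.2.1 p.2.2.1 p.2.2.2) (hes : PT es)
    (hr : PT fun p : β × ℕ × ℕ => r p.1 p.2.1 p.2.2) :
    PT fun a => greedyM (t a) (es a) (r a) := by
  have h1 : PT fun a => greedyI (t a) (es a) (r a) := by
    unfold greedyI
    refine PT.foldl_grow (f := fun a => gstep (t a) (es a)) (by fun_prop) (PT.const _) ?_
      (G := fun p => sz p.2 + 1) (by fun_prop) fun a c b _ => ?_
    · have h2 : PT fun p : β × List ℕ × ℕ => t p.1 (pick (es p.1) p.2.1)
          ((es p.1).getD p.2.2 (0, 0)).1 ((es p.1).getD p.2.2 (0, 0)).2 :=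
        ht.comp_eq (fun p : β × List ℕ × ℕ => (p.1, pick (es p.1) p.2.1,
          ((es p.1).getD p.2.2 (0, 0)).1, ((es p.1).getD p.2.2 (0, 0)).2))
          (by unfold pick; fun_prop)
      unfold gstep
      exact PT.ite h2.eq_true (by fun_prop) (by fun_prop)
    · unfold gstep
      split_ifs
      · simp; omega
      · omega
  unfold greedyM
  exact PT.map (f := fun a i => decide (i ∈ greedyI (t a) (es a) (r a))) (by fun_prop)
    (PT.decide' (PT.mem (h1.comp (PT.fst PT.id)) (PT.snd PT.id)))

end Crest.Agent.X37.Gr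
end

-- ▼ part X37/Gr/Of
section

/-!
# Row 37: the greedy statement from an independence test
-/

set_option autoImplicit false

namespace Crest.Agent.X37.Gr

open Finset Crest.Agent.Lib.PT Crest.Agent.X37.IO

/-- a polynomial-time independence test for the `(k, k)`-sparsity matroid -/
def TestStatement : Prop :=
  ∃ t : Un × ℕ × List (ℕ × ℕ) × ℕ × ℕ → Bool, PT t ∧
    ∀ n k : ℕ, 1 ≤ k → TestSpec n k fun F u v => t (⟨n⟩, k, F, u, v)

theorem greedy_of (h : TestStatement) : Outer.GreedyStatement := by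
  obtain ⟨t, h1, h2⟩ := h
  refine ⟨fun a => greedyM (fun F u v => t (a.1, a.2.1, F, u, v)) a.2.2.1
    fun i j => a.2.2.2.getD i 0 ≤ a.2.2.2.getD j 0, ?_, fun n k es l h hk _ => ?_⟩
  · exact greedyM_pt (t := fun a : Un × ℕ × List (ℕ × ℕ) × List ℚ =>
      fun F u v => t (a.1, a.2.1, F, u, v))
      (r := fun a i j => a.2.2.2.getD i 0 ≤ a.2.2.2.getD j 0)
      (h1.comp (by fun_prop)) (by fun_prop) (by fun_prop)
  · exact greedyM_spec h (fun i => l.getD i 0) (h2 n k hk)

end Crest.Agent.X37.Gr
end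

-- ▼ part X37/Gr/Peb
section

/-!
# Row 37: the orientation test (pebble game) and the greedy statement
-/

set_option autoImplicit false

namespace Crest.Agent.X37.Gr.Peb

open Finset Crest.Agent.Lib.PT Crest.Agent.X37.IO

abbrev Or := List (ℕ × ℕ)

/-- the number of edges with tail `v` -/
def load (o : Or) (v : ℕ) : ℕ := o.countP fun e => decide (e.1 = v)

/-- total overload -/
def exc (n : ℕ) (cap : ℕ → ℕ) (o : Or) : ℕ := ∑ v ∈ range n, (load o v - cap v)

/-- `o` is a re-orientation of `F` -/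
def Eqv (n : ℕ) (F o : Or) : Prop :=
  (∀ S, insL o S = insL F S) ∧ sz o = sz F ∧ o.length = F.length ∧ ∀ e ∈ o, e.1 < n ∧ e.2 < n

def Hall (n : ℕ) (cap : ℕ → ℕ) (F : Or) : Prop := ∀ S ⊆ range n, insL F S ≤ ∑ v ∈ S, cap v

/-- reverse one copy of the edge `e` -/
def flip (T : Or) (e : ℕ × ℕ) : Or := (e.2, e.1) :: T.erase e

def keys (vis : List (ℕ × Or)) : List ℕ := vis.map Prod.fst

/-- the search starts at the overloaded vertices -/
def start (n : ℕ) (cap : ℕ → ℕ) (o : Or) : Or × List (ℕ × Or) :=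
  (o, ((List.range n).filter fun r => decide (cap r < load o r)).map fun r => (r, o))

def step (n : ℕ) (cap : ℕ → ℕ) (c : Or × List (ℕ × Or)) : Or × List (ℕ × Or) :=
  (c.2.find? fun p => decide (load c.1 p.1 < cap p.1)).elim
    ((c.1.find? fun e => decide (e.1 ∈ keys c.2 ∧ e.2 ∉ keys c.2)).elim c fun e =>
      (c.1, (e.2, flip ((c.2.lookup e.1).getD []) e) :: c.2))
    fun p => start n cap p.2

theorem sum_load (o : Or) (S : Finset ℕ) :
    ∑ v ∈ S, load o v = o.countP fun e => decide (e.1 ∈ S) := by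
  induction o with
  | nil => simp [load]
  | cons e o ih =>
    simp only [load, List.countP_cons, decide_eq_true_eq, Finset.sum_add_distrib] at ih ⊢
    rw [ih, Finset.sum_ite_eq]

theorem insL_le (o : Or) (S : Finset ℕ) : insL o S ≤ ∑ v ∈ S, load o v := by
  rw [sum_load]
  exact List.countP_mono_left fun e _ h => by simp only [decide_eq_true_eq] at h ⊢; exact h.1

theorem le_insL {o : Or} {S : Finset ℕ} (h : ∀ e ∈ o, e.1 ∈ S → e.2 ∈ S) :
    ∑ v ∈ S, load o v ≤ insL o S := by
  rw [sum_load]
  exact List.countP_mono_left fun e he h1 => by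
    simp only [decide_eq_true_eq] at h1 ⊢; exact ⟨h1, h e he h1⟩

theorem exc_le (n : ℕ) (cap : ℕ → ℕ) (o : Or) : exc n cap o ≤ o.length :=
  le_trans (Finset.sum_le_sum fun _ _ => Nat.sub_le _ _)
    ((sum_load o _).trans_le List.countP_le_length)

variable {n : ℕ} {cap : ℕ → ℕ} {F o T : Or}

theorem load_flip {e : ℕ × ℕ} (he : e ∈ T) (v : ℕ) :
    load (flip T e) v + (if e.1 = v then 1 else 0) = load T v + if e.2 = v then 1 else 0 := by
  have := (List.perm_cons_erase he).countP_eq fun e => decide (e.1 = v)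
  simp only [load, flip, List.countP_cons, decide_eq_true_eq] at this ⊢
  omega

theorem Eqv.flip (h : Eqv n F T) {e : ℕ × ℕ} (he : e ∈ T) : Eqv n F (flip T e) := by
  obtain ⟨h1, h2, h3, h4⟩ := h
  have hp := List.perm_cons_erase he
  refine ⟨fun S => ?_, ?_, ?_, fun f hf => ?_⟩
  · rw [← h1 S]
    have := hp.countP_eq fun e => decide (e.1 ∈ S ∧ e.2 ∈ S)
    simp only [insL, Peb.flip, List.countP_cons, decide_eq_true_eq] at this ⊢
    rw [this, if_congr and_comm rfl rfl]
  · rw [← h2, PT.sz_perm hp, Peb.flip, sz_cons, sz_cons, sz_prod e, sz_mk]; omega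
  · rw [← h3, hp.length_eq]; rfl
  · rcases List.mem_cons.1 hf with rfl | hf
    · exact (h4 e he).symm
    · exact h4 f (List.mem_of_mem_erase hf)

theorem exc_lt {r w : ℕ} (hr : r < n) (h1 : cap r < load o r) (h2 : load o w < cap w)
    (h : ∀ v, load T v + (if r = v then 1 else 0) = load o v + if w = v then 1 else 0) :
    exc n cap T < exc n cap o := by
  refine Finset.sum_lt_sum (fun v _ => ?_) ⟨r, Finset.mem_range.2 hr, ?_⟩
  · have := h v
    split_ifs at this with h3 h4 h4
    · omega
    · omega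
    · subst h4; omega
    · omega
  · have := h r
    rw [if_pos rfl, if_neg (by rintro rfl; omega)] at this
    omega

/-- the invariant of the search -/
structure Inv (n : ℕ) (cap : ℕ → ℕ) (F : Or) (c : Or × List (ℕ × Or)) : Prop where
  eqv : Eqv n F c.1
  nodup : (keys c.2).Nodup
  lt : ∀ w ∈ keys c.2, w < n
  root : ∀ r < n, cap r < load c.1 r → r ∈ keys c.2
  mem : ∀ p ∈ c.2, Eqv n F p.2 ∧ (∀ e ∈ c.1, e.2 ∉ keys c.2 → e ∈ p.2) ∧
    ∃ r < n, cap r < load c.1 r ∧ ∀ v, load p.2 v + (if r = v then 1 else 0) =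
      load c.1 v + if p.1 = v then 1 else 0

theorem keys_start : keys (start n cap o).2 =
    (List.range n).filter fun r => decide (cap r < load o r) := by
  simp [keys, start, Function.comp_def]

theorem inv_start (h : Eqv n F o) : Inv n cap F (start n cap o) := by
  refine ⟨h, ?_, fun w hw => ?_, fun r h1 h2 => ?_, fun p hp => ?_⟩
  · rw [keys_start]; exact List.nodup_range.filter _
  · rw [keys_start] at hw; exact List.mem_range.1 (List.mem_filter.1 hw).1
  · rw [keys_start]; exact List.mem_filter.2 ⟨List.mem_range.2 h1, decide_eq_true h2⟩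
  · obtain ⟨r, hr, rfl⟩ := List.mem_map.1 hp
    obtain ⟨h1, h2⟩ := List.mem_filter.1 hr
    exact ⟨h, fun e he _ => he, r, List.mem_range.1 h1, of_decide_eq_true h2, fun _ => rfl⟩

theorem Inv.length_le {c : Or × List (ℕ × Or)} (h : Inv n cap F c) : c.2.length ≤ n := by
  have := (List.subperm_of_subset h.nodup fun w hw => List.mem_range.2 (h.lt w hw)).length_le
  simpa [keys] using this

theorem lookup_mem {vis : List (ℕ × Or)} {w : ℕ} (h : w ∈ keys vis) :
    (w, (vis.lookup w).getD []) ∈ vis := by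
  induction vis with
  | nil => simp [keys] at h
  | cons p vis ih =>
    obtain ⟨a, b⟩ := p
    by_cases h1 : w = a
    · subst h1; simp
    · have h2 : (w == a) = false := by simpa using h1
      rw [List.lookup_cons, h2]
      exact List.mem_cons_of_mem _ (ih (by simpa [keys, h1] using h))

/-- the potential -/
def pot (n : ℕ) (cap : ℕ → ℕ) (c : Or × List (ℕ × Or)) : ℕ :=
  exc n cap c.1 * (n + 1) + (n - c.2.length)

theorem Inv.step {c : Or × List (ℕ × Or)} (h : Inv n cap F c) :
    Inv n cap F (step n cap c) ∧ (c.2 = [] → step n cap c = c) ∧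
      (Hall n cap F → c.2 ≠ [] → pot n cap (step n cap c) < pot n cap c) := by
  unfold Peb.step
  cases h1 : c.2.find? fun p => decide (load c.1 p.1 < cap p.1) with
  | some p =>
    have h2 := List.mem_of_find?_eq_some h1
    have h3 : load c.1 p.1 < cap p.1 := by simpa using List.find?_some h1
    obtain ⟨h4, -, r, h5, h6, h7⟩ := h.mem p h2
    refine ⟨inv_start h4, fun h8 => by simp [h8] at h2, fun _ _ => ?_⟩
    have h8 := exc_lt h5 h6 h3 h7
    have h9 := Nat.mul_le_mul_right (n + 1) (Nat.succ_le_of_lt h8)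
    simp only [Option.elim_some, pot, start, Nat.succ_mul] at h9 ⊢
    omega
  | none =>
    cases h2 : c.1.find? fun e => decide (e.1 ∈ keys c.2 ∧ e.2 ∉ keys c.2) with
    | some e =>
      have h3 := List.mem_of_find?_eq_some h2
      obtain ⟨h4, h5⟩ : e.1 ∈ keys c.2 ∧ e.2 ∉ keys c.2 := by simpa using List.find?_some h2
      obtain ⟨h6, h7, r, h8, h9, h10⟩ := h.mem _ (lookup_mem h4)
      have h11 := h7 e h3 h5
      have hI : Inv n cap F (c.1, (e.2, flip ((c.2.lookup e.1).getD []) e) :: c.2) := by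
        refine ⟨h.eqv, List.nodup_cons.2 ⟨h5, h.nodup⟩, fun w hw => ?_,
          fun r h12 h13 => List.mem_cons_of_mem _ (h.root r h12 h13), fun p hp => ?_⟩
        · rcases List.mem_cons.1 hw with rfl | hw
          · exact (h.eqv.2.2.2 e h3).2
          · exact h.lt w hw
        · rcases List.mem_cons.1 hp with rfl | hp
          · refine ⟨h6.flip h11, fun f hf h12 => ?_, r, h8, h9, fun v => ?_⟩
            · obtain ⟨h13, h14⟩ := not_or.1 (List.mem_cons.not.1 h12)
              exact List.mem_cons_of_mem _ ((List.mem_erase_of_ne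
                (by rintro rfl; exact h13 rfl)).2 (h7 f hf h14))
            · have := load_flip h11 v
              have := h10 v
              simp only at *
              omega
          · obtain ⟨h12, h13, h14⟩ := h.mem p hp
            exact ⟨h12, fun f hf h15 => h13 f hf fun h16 => h15 (List.mem_cons_of_mem _ h16), h14⟩
      refine ⟨hI, fun h12 => by simp [h12, keys] at h4, fun _ _ => ?_⟩
      have := hI.length_le
      simp only [Option.elim_some, Option.elim_none, pot, List.length_cons] at this ⊢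
      omega
    | none =>
      refine ⟨h, fun _ => rfl, fun hH h3 => ?_⟩
      exfalso
      obtain ⟨p, hp⟩ := List.exists_mem_of_ne_nil _ h3
      obtain ⟨-, -, r, h4, h5, -⟩ := h.mem p hp
      have h6 := hH (keys c.2).toFinset fun w hw =>
        Finset.mem_range.2 (h.lt w (List.mem_toFinset.1 hw))
      have h7 : ∑ v ∈ (keys c.2).toFinset, load c.1 v ≤ insL c.1 (keys c.2).toFinset :=
        le_insL fun e he h8 => by
          have := List.find?_eq_none.1 h2 e he
          simp only [decide_eq_true_eq, not_and, not_not] at this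
          exact List.mem_toFinset.2 (this (List.mem_toFinset.1 h8))
      have h8 : ∑ v ∈ (keys c.2).toFinset, cap v < ∑ v ∈ (keys c.2).toFinset, load c.1 v := by
        refine Finset.sum_lt_sum (fun v hv => ?_) ⟨r, List.mem_toFinset.2 (h.root r h4 h5), h5⟩
        obtain ⟨q, hq, rfl⟩ := List.mem_map.1 (List.mem_toFinset.1 hv)
        simpa using List.find?_eq_none.1 h1 q hq
      rw [h.eqv.1] at h7
      omega

theorem Inv.hall {c : Or × List (ℕ × Or)} (h : Inv n cap F c) (h1 : c.2 = []) : Hall n cap F :=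
  fun S hS => by
    rw [← h.eqv.1]
    refine (insL_le _ _).trans (Finset.sum_le_sum fun v hv => not_lt.1 fun h2 => ?_)
    have := h.root v (Finset.mem_range.1 (hS hv)) h2
    simp [h1, keys] at this

theorem Inv.sz_le {c : Or × List (ℕ × Or)} (h : Inv n cap F c) :
    sz c ≤ sz F + n * (4 * n + sz F + 3) + 2 := by
  have h1 : sz c.2 ≤ c.2.length * (4 * n + sz F + 3) + 1 :=
    sz_list_le (B := 4 * n + sz F + 2) fun p hp => by
    have h2 := h.lt p.1 (List.mem_map_of_mem hp)
    have h3 := sz_nat_le_self p.1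
    rw [sz_prod, (h.mem p hp).1.2.1]
    omega
  have h2 := Nat.mul_le_mul_right (4 * n + sz F + 3) h.length_le
  rw [sz_prod, h.eqv.2.1]
  omega

/-- **The orientation test** is solvable in polynomial time. -/
theorem hall_solvable {α : Type} [Enc α] {n : α → ℕ} {cap : α → ℕ → ℕ} {F : α → Or} (hn : PT n)
    (hb : PB n) (hc : PT fun p : α × ℕ => cap p.1 p.2) (hF : PT F) :
    Solvable (fun a => ∀ e ∈ F a, e.1 < n a ∧ e.2 < n a)
      fun a (b : Bool) => b = true ↔ Hall (n a) (cap a) (F a) := by
  have hs : ∀ {β : Type} [Enc β] {g : β → α} {o : β → Or}, PT g → PT o →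
      PT fun b => start (n (g b)) (cap (g b)) (o b) := fun {β} _ {g} {o} hg ho => by
    have h1 : PT fun b => n (g b) := hn.comp hg
    have h2 : PB fun b => n (g b) := hb.comp hg
    have h3 : PT fun p : β × ℕ => cap (g p.1) p.2 :=
      hc.comp_eq (fun p : β × ℕ => (g p.1, p.2)) (by fun_prop)
    unfold start load
    fun_prop
  have hstep : PT fun p : α × Or × List (ℕ × Or) => step (n p.1) (cap p.1) p.2 := by
    unfold step
    refine PT.option_elim ?_ ?_ (hs (g := fun q : (α × Or × List (ℕ × Or)) × ℕ × Or => q.1.1)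
      (by fun_prop) (by fun_prop))
    · have h3 : PT fun q : (α × Or × List (ℕ × Or)) × ℕ × Or => cap q.1.1 q.2.1 :=
        hc.comp_eq (fun q : (α × Or × List (ℕ × Or)) × ℕ × Or => (q.1.1, q.2.1)) (by fun_prop)
      unfold load
      fun_prop
    · unfold keys flip
      fun_prop
  obtain ⟨f, hf, h⟩ := Solvable.iter (V := fun a => ∀ e ∈ F a, e.1 < n a ∧ e.2 < n a)
    (fun a k c => Inv (n a) (cap a) (F a) c ∧ (Hall (n a) (cap a) (F a) → c.2 = [] ∨
      pot (n a) (cap a) c + k < ((F a).length + 1) * (n a + 1)))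
    (n := fun a => ((F a).length + 1) * (n a + 1)) (by fun_prop) (by fun_prop)
    ⟨fun a => start (n a) (cap a) (F a), hs PT.id hF, fun a ha =>
      ⟨inv_start ⟨fun _ => rfl, rfl, rfl, ha⟩, fun _ => Or.inr (by
        have := Nat.mul_le_mul_right (n a + 1) (exc_le (n a) (cap a) (F a))
        simp only [pot, start, Nat.succ_mul]
        omega)⟩⟩
    hstep (fun a k c _ _ h => by
      obtain ⟨h1, h2, h3⟩ := h.1.step
      refine ⟨h1, fun hH => ?_⟩
      by_cases h4 : c.2 = []
      · exact Or.inl (by rw [h2 h4]; exact h4)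
      · have := h3 hH h4
        have := (h.2 hH).resolve_left h4
        exact Or.inr (by omega))
    (B := fun a => sz (F a) + n a * (4 * n a + sz (F a) + 3) + 2) (by fun_prop)
    fun a k c _ _ h => h.1.sz_le
  refine ⟨fun a => (f a).2.isEmpty, by fun_prop, fun a ha => ?_⟩
  exact List.isEmpty_iff.trans
    ⟨(h a ha).1.hall, fun hH => ((h a ha).2 hH).resolve_right (by omega)⟩

/-- capacities for testing the edge `u v` -/
def capT (k u v w : ℕ) : ℕ := if w = v then 0 else if w = u then k - 1 else k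

theorem sum_capT {k u v : ℕ} (hk : 1 ≤ k) (huv : u ≠ v) (S : Finset ℕ) :
    ∑ w ∈ S, capT k u v w + (if v ∈ S then k else 0) + (if u ∈ S then 1 else 0) = k * S.card := by
  rw [← Finset.sum_ite_eq' S v fun _ => k, ← Finset.sum_ite_eq' S u fun _ => 1,
    ← Finset.sum_add_distrib, ← Finset.sum_add_distrib, Finset.card_eq_sum_ones, Finset.mul_sum]
  refine Finset.sum_congr rfl fun w _ => ?_
  unfold capT
  split_ifs <;> omega

theorem testStatement : TestStatement := by
  obtain ⟨t, ht, h⟩ := hall_solvable (α := Un × ℕ × List (ℕ × ℕ) × ℕ × ℕ) (n := fun a => a.1.n)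
    (cap := fun a => capT a.2.1 a.2.2.2.1 a.2.2.2.2) (F := fun a => a.2.2.1) (by fun_prop)
    (by fun_prop) (by unfold capT; fun_prop) (by fun_prop)
  refine ⟨t, ht, fun n k hk F u v hF _ _ huv hs => ?_⟩
  refine (h (⟨n⟩, k, F, u, v) fun e he => ⟨(hF e he).1, (hF e he).2.1⟩).trans
    ⟨fun hH S hS h1 h2 => ?_, fun hH S hS => ?_⟩
  · have h3 : insL F S ≤ ∑ w ∈ S, capT k u v w := hH S hS
    have h4 := sum_capT hk huv S
    rw [if_pos h1, if_pos h2] at h4
    omega
  · show insL F S ≤ ∑ w ∈ S, capT k u v w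
    have h4 := sum_capT hk huv S
    rcases S.eq_empty_or_nonempty with rfl | h5
    · simp [insL]
    · have h6 := hs S hS h5
      split_ifs at h4 with h7 h8 h8
      · have := hH S hS h8 h7; omega
      all_goals omega

end Crest.Agent.X37.Gr.Peb

/-- **Step (0)** -/
theorem Crest.Agent.X37.Gr.greedyStatement : Crest.Agent.X37.Outer.GreedyStatement :=
  Crest.Agent.X37.Gr.greedy_of Crest.Agent.X37.Gr.Peb.testStatement
end

-- ▼ part X37/Inner/Graph
section

/-!
# Row 37, inner loop: edge sets joining two vertices, and the growth lemma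
-/

set_option autoImplicit false
set_option linter.unusedSectionVars false

open Finset

namespace Crest.Agent.X37.Inner

open Crest.CombinatoricsR.Multigraph

variable {V E : Type*} [Fintype V] [DecidableEq V] [Fintype E] [DecidableEq E]

/-- every set of vertices containing `u` but not `v` is left by an edge of `P` -/
def Joins (src tgt : E → V) (P : Finset E) (u v : V) : Prop :=
  ∀ S : Finset V, u ∈ S → v ∉ S → (cutEdges src tgt P S).Nonempty

variable {src tgt : E → V}

theorem mem_cutEdges {P : Finset E} {S : Finset V} {e : E} :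
    e ∈ cutEdges src tgt P S ↔
      e ∈ P ∧ ((src e ∈ S ∧ tgt e ∉ S) ∨ (src e ∉ S ∧ tgt e ∈ S)) := by
  simp [cutEdges]

theorem Joins.mono {P Q : Finset E} {u v : V} (h : Joins src tgt P u v) (hPQ : P ⊆ Q) :
    Joins src tgt Q u v := fun S hu hv => by
  obtain ⟨e, he⟩ := h S hu hv
  rw [mem_cutEdges] at he
  exact ⟨e, mem_cutEdges.2 ⟨hPQ he.1, he.2⟩⟩

theorem joins_self (P : Finset E) (u : V) : Joins src tgt P u u := fun _ hu hv => (hv hu).elim

theorem Joins.symm {P : Finset E} {u v : V} (h : Joins src tgt P u v) : Joins src tgt P v u :=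
  fun S hv hu => by
    obtain ⟨e, he⟩ := h Sᶜ (by simpa using hu) (by simpa using hv)
    rw [mem_cutEdges] at he
    refine ⟨e, mem_cutEdges.2 ⟨he.1, ?_⟩⟩
    simp only [mem_compl, not_not] at he
    tauto

theorem Joins.trans {P Q : Finset E} {u v w : V} (h : Joins src tgt P u v)
    (h' : Joins src tgt Q v w) : Joins src tgt (P ∪ Q) u w := fun S hu hw => by
  by_cases hv : v ∈ S
  · exact (h'.mono subset_union_right) S hv hw
  · exact (h.mono subset_union_left) S hu hv

theorem joins_edge (e : E) : Joins src tgt {e} (src e) (tgt e) := fun _ hu hv =>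
  ⟨e, mem_cutEdges.2 ⟨mem_singleton_self e, Or.inl ⟨hu, hv⟩⟩⟩

theorem Conn.joins (h : Conn src tgt) (u v : V) : Joins src tgt univ u v := fun S hu hv =>
  h S ⟨u, hu⟩ fun hS => hv (hS ▸ mem_univ v)

theorem Joins.nonempty {P : Finset E} {u v : V} (h : Joins src tgt P u v) (huv : u ≠ v) :
    P.Nonempty := by
  obtain ⟨e, he⟩ := h {u} (mem_singleton_self u) (by simpa using huv.symm)
  exact ⟨e, (mem_cutEdges.1 he).1⟩

/-- **Growth lemma**: a quantity that grows by at most the weight of an edge along the edge, one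
edge per round, is bounded after `card V` rounds by the weight of any joining set. -/
theorem grow {g : ℕ → V → ℝ} {wt : E → ℝ} (hwt : ∀ e, 0 ≤ wt e) {u : V} (h0 : g 0 u ≤ 0)
    (h1 : ∀ k w, g (k + 1) w ≤ g k w) (h2 : ∀ k e, g (k + 1) (tgt e) ≤ g k (src e) + wt e)
    (h3 : ∀ k e, g (k + 1) (src e) ≤ g k (tgt e) + wt e)
    {Q : Finset E} {v : V} (hQ : Joins src tgt Q u v) :
    g (Fintype.card V) v ≤ ∑ e ∈ Q, wt e := by
  have key : ∀ k, ∃ S : Finset V, u ∈ S ∧ (k + 1 ≤ S.card ∨ ¬ (cutEdges src tgt Q S).Nonempty) ∧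
      ∀ w ∈ S, g k w ≤ ∑ e ∈ Q.filter (fun e => src e ∈ S ∧ tgt e ∈ S), wt e := by
    intro k
    induction k with
    | zero =>
      refine ⟨{u}, mem_singleton_self u, Or.inl (by simp), fun w hw => ?_⟩
      rw [mem_singleton.1 hw]
      exact h0.trans (sum_nonneg fun e _ => hwt e)
    | succ k ih =>
      obtain ⟨S, hu, hc, hg⟩ := ih
      by_cases hcut : (cutEdges src tgt Q S).Nonempty
      · obtain ⟨e, he⟩ := hcut
        have hk : k + 1 ≤ S.card := hc.resolve_right fun h => h ⟨e, he⟩
        rw [mem_cutEdges] at he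
        have step : ∀ a b : V, a ∈ S → b ∉ S → ((src e = a ∧ tgt e = b) ∨ (src e = b ∧ tgt e = a)) →
            g (k + 1) b ≤ g k a + wt e →
            ∃ S : Finset V, u ∈ S ∧ (k + 1 + 1 ≤ S.card ∨ ¬ (cutEdges src tgt Q S).Nonempty) ∧
              ∀ w ∈ S, g (k + 1) w ≤ ∑ e ∈ Q.filter (fun e => src e ∈ S ∧ tgt e ∈ S), wt e := by
          intro a b ha hb hab hstep
          have hne : e ∉ Q.filter (fun e => src e ∈ S ∧ tgt e ∈ S) := by
            simp only [mem_filter, not_and]
            rintro - h1 h2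
            rcases hab with ⟨-, h⟩ | ⟨h, -⟩
            · exact hb (h ▸ h2)
            · exact hb (h ▸ h1)
          have hsub : insert e (Q.filter (fun e => src e ∈ S ∧ tgt e ∈ S)) ⊆
              Q.filter (fun e => src e ∈ insert b S ∧ tgt e ∈ insert b S) := by
            intro f hf
            rcases mem_insert.1 hf with rfl | hf
            · refine mem_filter.2 ⟨he.1, ?_⟩
              rcases hab with ⟨h, h'⟩ | ⟨h, h'⟩ <;> rw [h, h'] <;> simp [ha]
            · rw [mem_filter] at hf ⊢
              exact ⟨hf.1, mem_insert_of_mem hf.2.1, mem_insert_of_mem hf.2.2⟩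
          have hle := sum_le_sum_of_subset_of_nonneg (f := wt) hsub fun e _ _ => hwt e
          rw [sum_insert hne] at hle
          refine ⟨insert b S, mem_insert_of_mem hu, Or.inl ?_, fun w hw => ?_⟩
          · rw [card_insert_of_notMem hb]; omega
          · rcases mem_insert.1 hw with rfl | hw
            · have := hg a ha; linarith
            · have := hg w hw; have := h1 k w; have := hwt e; linarith
        rcases he.2 with ⟨ha, hb⟩ | ⟨hb, ha⟩
        · exact step _ _ ha hb (Or.inl ⟨rfl, rfl⟩) (h2 k e)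
        · exact step _ _ ha hb (Or.inr ⟨rfl, rfl⟩) (h3 k e)
      · exact ⟨S, hu, Or.inr hcut, fun w hw => (h1 k w).trans (hg w hw)⟩
  obtain ⟨S, hu, hc, hg⟩ := key (Fintype.card V)
  have hc' : ¬ (cutEdges src tgt Q S).Nonempty := hc.resolve_left fun h => by
    have := card_le_univ S; omega
  have hv : v ∈ S := by
    by_contra hv
    exact hc' (hQ S hu hv)
  exact (hg v hv).trans
    (sum_le_sum_of_subset_of_nonneg (filter_subset _ _) fun e _ _ => hwt e)

theorem Joins.abs_sub_le {Q : Finset E} {u v : V} (hQ : Joins src tgt Q u v) (x : V → ℝ) :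
    |x u - x v| ≤ ∑ e ∈ Q, |x (src e) - x (tgt e)| := by
  refine grow (g := fun _ w => |x u - x w|) (fun e => abs_nonneg _) (by simp) (fun _ _ => le_rfl)
    (fun _ e => _root_.abs_sub_le _ _ _) (fun _ e => ?_) hQ
  rw [abs_sub_comm (x (src e))]
  exact _root_.abs_sub_le _ _ _

theorem Conn.sq_sub_le (h : Conn src tgt) (x : V → ℝ) (u v : V) :
    (x u - x v) ^ 2 ≤ Fintype.card E * ∑ e, (x (src e) - x (tgt e)) ^ 2 := by
  have h1 := (h.joins u v).abs_sub_le x
  have h2 := sq_sum_le_card_mul_sum_sq (s := (univ : Finset E))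
    (f := fun e => |x (src e) - x (tgt e)|)
  simp only [sq_abs, card_univ] at h2
  calc (x u - x v) ^ 2 = |x u - x v| ^ 2 := (sq_abs _).symm
    _ ≤ (∑ e, |x (src e) - x (tgt e)|) ^ 2 := by gcongr
    _ ≤ _ := h2

/-- the weight of a set of edges -/
def len (w : E → ℕ) (P : Finset E) : ℕ := ∑ e ∈ P, w e

theorem len_union_le (w : E → ℕ) (P Q : Finset E) : len w (P ∪ Q) ≤ len w P + len w Q := by
  unfold len
  rw [← sum_union_inter]; omega

theorem len_insert_le (w : E → ℕ) (P : Finset E) (e : E) : len w (insert e P) ≤ len w P + w e := by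
  have := len_union_le w {e} P
  rw [← insert_eq] at this
  simp only [len, sum_singleton] at this ⊢
  omega

/-- `P` is a lightest set of edges joining `u` and `v` -/
def Best (src tgt : E → V) (w : E → ℕ) (P : Finset E) (u v : V) : Prop :=
  Joins src tgt P u v ∧ ∀ Q, Joins src tgt Q u v → len w P ≤ len w Q

/-- Bellman-Ford with edge sets. -/
theorem best_of_rounds (w : E → ℕ) {u : V} {P : ℕ → V → Finset E} (h0 : P 0 u = ∅)
    (h0' : ∀ v, Joins src tgt (P 0 v) u v)
    (hs : ∀ k v, P (k + 1) v = P k v ∨ ∃ e, (tgt e = v ∧ P (k + 1) v = insert e (P k (src e))) ∨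
      (src e = v ∧ P (k + 1) v = insert e (P k (tgt e))))
    (h1 : ∀ k v, len w (P (k + 1) v) ≤ len w (P k v))
    (h2 : ∀ k e, len w (P (k + 1) (tgt e)) ≤ len w (insert e (P k (src e))))
    (h3 : ∀ k e, len w (P (k + 1) (src e)) ≤ len w (insert e (P k (tgt e)))) (v : V) :
    Best src tgt w (P (Fintype.card V) v) u v := by
  constructor
  · have : ∀ k v, Joins src tgt (P k v) u v := by
      intro k
      induction k with
      | zero => exact h0'
      | succ k ih =>
        intro v
        rcases hs k v with h | ⟨e, ⟨he, h⟩ | ⟨he, h⟩⟩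
        · rw [h]; exact ih v
        · rw [h, ← he, insert_eq, union_comm]; exact (ih _).trans (joins_edge e)
        · rw [h, ← he, insert_eq, union_comm]; exact (ih _).trans (joins_edge e).symm
    exact this _ v
  · intro Q hQ
    have := grow (g := fun k v => (len w (P k v) : ℝ)) (wt := fun e => (w e : ℝ))
      (fun e => Nat.cast_nonneg _) (u := u) (by simp [h0, len])
      (fun k v => by exact_mod_cast h1 k v)
      (fun k e => by exact_mod_cast (h2 k e).trans (len_insert_le w _ e))
      (fun k e => by exact_mod_cast (h3 k e).trans (len_insert_le w _ e)) hQ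
    unfold len at this ⊢
    exact_mod_cast this

end Crest.Agent.X37.Inner
end

-- ▼ part X37/Inner/Math
section

/-!
# Row 37, inner loop: the invariant, one step, and the two outcomes
-/

set_option autoImplicit false
set_option linter.unusedSectionVars false

open Finset Matrix

namespace Crest.Agent.X37.Inner

open Crest.CombinatoricsR.Multigraph

variable {V E : Type*} [Fintype V] [DecidableEq V] [Fintype E] [DecidableEq E]

/-- incidence vector of an edge -/
def be (src tgt : E → V) (e : E) : V → ℝ := bv (src e) (tgt e)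

/-- resistance of an edge -/
noncomputable def res (src tgt : E → V) (M : Matrix V V ℝ) (e : E) : ℝ :=
  ip M (be src tgt e) (be src tgt e)

/-- power sums of the resistances on `F` -/
noncomputable def pw (src tgt : E → V) (F : Finset E) (M : Matrix V V ℝ) (p : ℕ) : ℝ :=
  ∑ e ∈ F, res src tgt M e ^ p

/-- the squared distance of `u` and `v` in the embedding -/
noncomputable def yv (src tgt : E → V) (F : Finset E) (M : Matrix V V ℝ) (q : ℕ) (u v : V) : ℝ :=
  ∑ e ∈ F, res src tgt M e ^ q * ip M (be src tgt e) (bv u v) ^ 2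

/-- the starting multiple of the Laplacian -/
def c0 (m : ℕ) : ℕ := m * (m + 1)

/-- weights `2 ^ load` -/
def wt (load : E → ℕ) (e : E) : ℕ := 2 ^ load e

/-- the starting matrix -/
def M0 (src tgt : E → V) : Matrix V V ℝ :=
  (c0 (Fintype.card E) : ℝ) • ∑ e, vecMulVec (be src tgt e) (be src tgt e) +
    vecMulVec (fun _ => 1) (fun _ => 1)

/-- the `p`-norm of the resistances, `p = m + 1` -/
noncomputable def phi (src tgt : E → V) (F : Finset E) (M : Matrix V V ℝ) : ℝ :=
  pw src tgt F M (Fintype.card E + 1) ^ ((Fintype.card E + 1 : ℕ) : ℝ)⁻¹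

/-- the loop invariant -/
structure Inv (src tgt : E → V) (F : Finset E) (sig : ℝ) (M : Matrix V V ℝ) (load : E → ℕ) :
    Prop where
  pd : M.PosDef
  low : ∀ x, (c0 (Fintype.card E) : ℝ) * ∑ e, (x (src e) - x (tgt e)) ^ 2 ≤ qf M x
  cut : ∀ S : Finset V, qf M (ind S (S.card / Fintype.card V)) ≤
    ∑ e ∈ cutEdges src tgt univ S, ((c0 (Fintype.card E) : ℝ) + load e)
  pot : phi src tgt F M * Real.log (len (wt load) univ / Fintype.card E) ≤ 8 * sig
  tot : len (wt load) univ ≤ 2 * (Fintype.card E * 2 ^ c0 (Fintype.card E))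

variable {src tgt : E → V} {F : Finset E} {sig : ℝ} {M : Matrix V V ℝ} {load : E → ℕ}

theorem res_nonneg (hM : M.PosDef) (e : E) : 0 ≤ res src tgt M e := ip_nonneg hM _

theorem pw_nonneg (hM : M.PosDef) (p : ℕ) : 0 ≤ pw src tgt F M p :=
  sum_nonneg fun e _ => pow_nonneg (res_nonneg hM e) p


theorem yv_self (q : ℕ) (u : V) : yv src tgt F M q u u = 0 := by
  simp [yv, ip]

theorem phi_nonneg (hM : M.PosDef) : 0 ≤ phi src tgt F M :=
  Real.rpow_nonneg (pw_nonneg hM _) _

theorem phi_pow (hM : M.PosDef) :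
    phi src tgt F M ^ (Fintype.card E + 1) = pw src tgt F M (Fintype.card E + 1) :=
  Real.rpow_inv_natCast_pow (pw_nonneg hM _) (Nat.succ_ne_zero _)

theorem res_le_phi (hM : M.PosDef) {e : E} (he : e ∈ F) : res src tgt M e ≤ phi src tgt F M := by
  refine le_of_pow_le_pow_left₀ (Nat.succ_ne_zero (Fintype.card E)) (phi_nonneg hM) ?_
  rw [phi_pow hM]
  exact single_le_sum (f := fun e => res src tgt M e ^ (Fintype.card E + 1))
    (fun e _ => pow_nonneg (res_nonneg hM e) _) he

theorem ind_sub_sq (S : Finset V) (c : ℝ) (u v : V) :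
    (ind S c u - ind S c v) ^ 2 = if (u ∈ S ∧ v ∉ S) ∨ (u ∉ S ∧ v ∈ S) then 1 else 0 := by
  unfold ind
  by_cases hu : u ∈ S <;> by_cases hv : v ∈ S <;> simp [hu, hv]
  right; ring

theorem sum_ind_sub_sq (S : Finset V) (c : ℝ) (P : Finset E) :
    ∑ e ∈ P, (ind S c (src e) - ind S c (tgt e)) ^ 2 = (cutEdges src tgt P S).card := by
  simp only [ind_sub_sq, cutEdges]
  rw [sum_ite, sum_const_zero, add_zero, sum_const, nsmul_eq_mul, mul_one]

theorem sum_ind_center (S : Finset V) : ∑ v, ind S (S.card / Fintype.card V) v = 0 := by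
  rcases isEmpty_or_nonempty V with h | h
  · simp
  · have : (Fintype.card V : ℝ) ≠ 0 := by positivity
    simp only [ind, sum_sub_distrib, sum_const, card_univ, nsmul_eq_mul]
    rw [sum_ite_mem, univ_inter, sum_const, nsmul_eq_mul, mul_one]
    field_simp
    ring

theorem qf_M0 (x : V → ℝ) : qf (M0 src tgt) x =
    c0 (Fintype.card E) * ∑ e, (x (src e) - x (tgt e)) ^ 2 + (∑ v, x v) ^ 2 := by
  rw [M0, qf_add, qf_smul, qf_sum, qf_vecMulVec]
  simp only [qf_vecMulVec, be, bv_dot]
  simp [dotProduct]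

theorem card_le_len (load : E → ℕ) : Fintype.card E ≤ len (wt load) univ := by
  rw [len, ← card_univ, card_eq_sum_ones]
  exact sum_le_sum fun e _ => Nat.one_le_two_pow

theorem inv_init (hc : Conn src tgt) (hE : 0 < Fintype.card E) (hsig : 0 ≤ sig) :
    Inv src tgt F sig (M0 src tgt) (fun _ => 0) := by
  have hc0 : (0 : ℝ) < c0 (Fintype.card E) := by unfold c0; positivity
  have hlen : len (wt fun _ : E => 0) univ = Fintype.card E := by simp [len, wt]
  refine ⟨?_, fun x => ?_, fun S => ?_, ?_, ?_⟩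
  · refine posDef_of_qf ?_ fun x hx => ?_
    · simp only [M0, transpose_add, transpose_smul, transpose_sum, transpose_vecMulVec]
    · rw [qf_M0]
      have h1 : 0 ≤ ∑ e, (x (src e) - x (tgt e)) ^ 2 := sum_nonneg fun _ _ => sq_nonneg _
      rcases h1.eq_or_lt with h1 | h1
      · obtain ⟨u, hu⟩ := Function.ne_iff.1 hx
        have h2 : ∀ v, x v = x u := fun v => by
          have := hc.sq_sub_le x v u
          rw [← h1, mul_zero] at this
          nlinarith [sq_nonneg (x v - x u)]
        have h3 : ∑ v, x v = Fintype.card V * x u := by simp [h2]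
        have : Nonempty V := ⟨u⟩
        have h4 : (0 : ℝ) < Fintype.card V := by exact_mod_cast Fintype.card_pos
        have h5 : x u ≠ 0 := hu
        rw [← h1, h3]
        positivity
      · positivity
  · rw [qf_M0]; nlinarith [sq_nonneg (∑ v, x v)]
  · rw [qf_M0, sum_ind_center, sum_ind_sub_sq]
    simp [mul_comm]
  · have : (Fintype.card E : ℝ) ≠ 0 := by positivity
    rw [hlen, div_self this, Real.log_one, mul_zero]; positivity
  · rw [hlen]
    have : 1 ≤ 2 ^ c0 (Fintype.card E) := Nat.one_le_two_pow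
    nlinarith

/-- `(R - t) ^ (q + 1) ≤ R ^ (q + 1) - (q + 1) / 2 * R ^ q * t` for small `t` -/
theorem sub_pow_le {R t : ℝ} (q : ℕ) (ht : 0 ≤ t) (h : (q + 1) * t ≤ R) :
    (R - t) ^ (q + 1) ≤ R ^ (q + 1) - (q + 1) / 2 * (R ^ q * t) := by
  have hq : (0 : ℝ) ≤ q := Nat.cast_nonneg q
  have hR : 0 ≤ R := le_trans (by positivity) h
  rcases hR.eq_or_lt with hR | hR
  · have : t = 0 := by nlinarith
    simp [this]
  · set x := t / R with hx
    have hx0 : 0 ≤ x := by positivity
    have hx1 : (q + 1) * x ≤ 1 := by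
      rw [hx, ← mul_div_assoc, div_le_one hR]; exact h
    have hx2 : x ≤ 1 := by nlinarith
    have htx : t = R * x := by rw [hx]; field_simp
    have h1 : 1 + ((q + 1 : ℕ) : ℝ) * x ≤ (1 + x) ^ (q + 1) :=
      one_add_mul_le_pow (by linarith) _
    have h2 : (1 - x) ^ (q + 1) * (1 + x) ^ (q + 1) ≤ 1 := by
      rw [← mul_pow]
      exact pow_le_one₀ (by nlinarith) (by nlinarith)
    have h3 : 0 ≤ (1 - x) ^ (q + 1) := pow_nonneg (by linarith) _
    push_cast at h1
    have h4 : (1 - x) ^ (q + 1) * (1 + (q + 1) * x) ≤ 1 := le_trans (by gcongr) h2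
    have h5 : (1 - x) ^ (q + 1) ≤ 1 - (q + 1) / 2 * x := by
      have hy : 0 ≤ (q + 1) * x := by positivity
      by_contra hcon
      push Not at hcon
      have : (1 - (q + 1) / 2 * x) * (1 + (q + 1) * x) < (1 - x) ^ (q + 1) * (1 + (q + 1) * x) :=
        mul_lt_mul_of_pos_right hcon (by linarith)
      nlinarith
    calc (R - t) ^ (q + 1) = R ^ (q + 1) * (1 - x) ^ (q + 1) := by
          rw [← mul_pow, htx]; congr 1; ring
      _ ≤ R ^ (q + 1) * (1 - (q + 1) / 2 * x) := by gcongr
      _ = _ := by rw [htx]; ring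

theorem pw_update (hM : M.PosDef) (q : ℕ) (u v : V)
    (h : (q + 1) * ip M (bv u v) (bv u v) ≤ 1) :
    pw src tgt F (M + vecMulVec (bv u v) (bv u v)) (q + 1) ≤
      pw src tgt F M (q + 1) - (q + 1) / 4 * yv src tgt F M q u v := by
  rw [pw, pw, yv, mul_sum, ← sum_sub_distrib]
  refine sum_le_sum fun e _ => ?_
  have hq : (0 : ℝ) ≤ q := Nat.cast_nonneg q
  have hr := ip_nonneg hM (bv u v)
  have hR := res_nonneg (src := src) (tgt := tgt) hM e
  have hcs := ip_sq_le hM (be src tgt e) (bv u v)
  rw [res, ip_add_vecMulVec hM]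
  change (res src tgt M e - _) ^ _ ≤ _
  change _ ≤ res src tgt M e * _ at hcs
  set R := res src tgt M e
  set r := ip M (bv u v) (bv u v)
  set b := ip M (be src tgt e) (bv u v) ^ 2 with hb
  have hb0 : 0 ≤ b := sq_nonneg _
  have hr1 : r ≤ 1 := by nlinarith
  have h1 : b / (1 + r) ≤ b := div_le_self hb0 (by linarith)
  have h2 : b / 2 ≤ b / (1 + r) := div_le_div_of_nonneg_left hb0 (by linarith) (by linarith)
  refine (sub_pow_le q (by positivity) ?_).trans ?_
  · calc (q + 1) * (b / (1 + r)) ≤ (q + 1) * (R * r) := by gcongr; exact h1.trans hcs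
      _ = R * ((q + 1) * r) := by ring
      _ ≤ R * 1 := by gcongr
      _ = R := mul_one R
  · have : (q + 1) / 2 * (R ^ q * (b / 2)) ≤ (q + 1) / 2 * (R ^ q * (b / (1 + r))) := by gcongr
    linarith

/-- the power mean inequality in the form used -/
theorem pw_mul_phi_le (hM : M.PosDef) :
    pw src tgt F M (Fintype.card E + 1) * phi src tgt F M ≤
      2 * pw src tgt F M (Fintype.card E + 2) := by
  set p := Fintype.card E + 1 with hp
  have hp0 : (0 : ℝ) < p := by positivity
  have h := Real.rpow_sum_le_const_mul_sum_rpow_of_nonneg F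
    (f := fun e => res src tgt M e ^ p) (p := 1 + (p : ℝ)⁻¹)
    (by have := inv_pos.2 hp0; linarith) (fun e _ => pow_nonneg (res_nonneg hM e) p)
  have h1 : (∑ e ∈ F, res src tgt M e ^ p) ^ (1 + (p : ℝ)⁻¹) =
      pw src tgt F M p * phi src tgt F M := by
    change pw src tgt F M p ^ _ = _
    rw [Real.rpow_add' (pw_nonneg hM p) (by positivity), Real.rpow_one]; rfl
  have h2 : ∑ e ∈ F, (res src tgt M e ^ p) ^ (1 + (p : ℝ)⁻¹) =
      pw src tgt F M (Fintype.card E + 2) := by
    refine sum_congr rfl fun e _ => ?_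
    have hR := res_nonneg (src := src) (tgt := tgt) hM e
    rw [Real.rpow_add' (pow_nonneg hR p) (by positivity), Real.rpow_one,
      Real.pow_rpow_inv_natCast hR (by omega), hp]
    ring
  have h3 : (F.card : ℝ) ^ (1 + (p : ℝ)⁻¹ - 1) ≤ 2 := by
    rw [add_sub_cancel_left]
    have : (F.card : ℝ) ≤ 2 ^ p := by
      have h4 : F.card ≤ p := (card_le_univ F).trans (by omega)
      exact_mod_cast h4.trans Nat.lt_two_pow_self.le
    calc (F.card : ℝ) ^ (p : ℝ)⁻¹ ≤ ((2 : ℝ) ^ p) ^ (p : ℝ)⁻¹ :=
          Real.rpow_le_rpow (Nat.cast_nonneg _) this (by positivity)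
      _ = 2 := Real.pow_rpow_inv_natCast (by norm_num) (by omega)
  rw [h1, h2] at h
  exact h.trans (mul_le_mul_of_nonneg_right h3 (pw_nonneg hM _))

/-- the loads after routing along `P` -/
def bump (load : E → ℕ) (P : Finset E) : E → ℕ := fun e => load e + if e ∈ P then 1 else 0

theorem len_bump (load : E → ℕ) (P : Finset E) :
    len (wt (bump load P)) univ = len (wt load) univ + len (wt load) P := by
  have : len (wt load) P = ∑ e, if e ∈ P then wt load e else 0 := by
    rw [sum_ite_mem, univ_inter, len]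
  rw [this, len, len, ← sum_add_distrib]
  refine sum_congr rfl fun e _ => ?_
  unfold wt bump
  split_ifs <;> simp [pow_succ, mul_two]

theorem sum_bump (load : E → ℕ) (P : Finset E) :
    ∑ e, bump load P e = ∑ e, load e + P.card := by
  simp [bump, sum_add_distrib]

theorem Inv.ip_bv_le (hI : Inv src tgt F sig M load) (hc : Conn src tgt)
    (hE : 0 < Fintype.card E) (u v : V) :
    ((Fintype.card E : ℝ) + 1) * ip M (bv u v) (bv u v) ≤ 1 := by
  have hm : (0 : ℝ) < Fintype.card E := by exact_mod_cast hE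
  have : ip M (bv u v) (bv u v) ≤ 1 / (Fintype.card E + 1) := by
    refine ip_le_of hI.pd _ (by positivity) fun x => ?_
    rw [bv_dot]
    refine (hc.sq_sub_le x u v).trans ?_
    have h1 := hI.low x
    rw [c0] at h1
    push_cast at h1
    rw [div_mul_eq_mul_div, le_div_iff₀ (by positivity)]
    linarith
  rwa [le_div_iff₀ (by positivity), mul_comm] at this

/-- one step of the loop -/
theorem Inv.step (hI : Inv src tgt F sig M load) (hc : Conn src tgt) (hE : 0 < Fintype.card E)
    (hsig : 0 < sig) (hW : len (wt load) univ < Fintype.card E * 2 ^ c0 (Fintype.card E))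
    {P : Finset E} {u v : V} (hP : Joins src tgt P u v)
    (hv : pw src tgt F M (Fintype.card E + 2) * len (wt load) P <
      yv src tgt F M (Fintype.card E) u v * sig * len (wt load) univ) :
    Inv src tgt F sig (M + vecMulVec (bv u v) (bv u v)) (bump load P) ∧ P.Nonempty := by
  have hM := hI.pd
  have hM' := posDef_add_vecMulVec hM (bv u v)
  have hm : (0 : ℝ) < Fintype.card E := by exact_mod_cast hE
  have hWm : (Fintype.card E : ℝ) ≤ len (wt load) univ := by exact_mod_cast card_le_len load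
  have hW0 : (0 : ℝ) < len (wt load) univ := hm.trans_le hWm
  have huv : u ≠ v := by
    rintro rfl
    rw [yv_self] at hv
    have := pw_nonneg (src := src) (tgt := tgt) (F := F) hM (Fintype.card E + 2)
    have : 0 ≤ pw src tgt F M (Fintype.card E + 2) * len (wt load) P := by positivity
    linarith
  refine ⟨⟨hM', fun x => ?_, fun S => ?_, ?_, ?_⟩, hP.nonempty huv⟩
  · rw [qf_add, qf_vecMulVec]
    have := hI.low x
    nlinarith [sq_nonneg (bv u v ⬝ᵥ x)]
  · rw [qf_add, qf_vecMulVec, bv_dot, ind_sub_sq]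
    have h1 := hI.cut S
    have h2 : ∑ e ∈ cutEdges src tgt univ S, ((c0 (Fintype.card E) : ℝ) + bump load P e) =
        ∑ e ∈ cutEdges src tgt univ S, ((c0 (Fintype.card E) : ℝ) + load e) +
          ∑ e ∈ cutEdges src tgt univ S, (if e ∈ P then (1 : ℝ) else 0) := by
      rw [← sum_add_distrib]
      refine sum_congr rfl fun e _ => ?_
      unfold bump
      split_ifs <;> simp [add_assoc]
    rw [h2]
    refine add_le_add h1 ?_
    split_ifs with h
    · have : (cutEdges src tgt P S).Nonempty := by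
        rcases h with h | h
        · exact hP S h.1 h.2
        · exact hP.symm S h.2 h.1
      obtain ⟨e, he⟩ := this
      rw [mem_cutEdges] at he
      have := single_le_sum (f := fun e => if e ∈ P then (1 : ℝ) else 0)
        (s := cutEdges src tgt univ S) (fun e _ => by split_ifs <;> norm_num)
        (mem_cutEdges.2 ⟨mem_univ e, he.2⟩)
      simpa [he.1] using this
    · exact sum_nonneg fun e _ => by split_ifs <;> norm_num
  · set W : ℝ := ((len (wt load) univ : ℕ) : ℝ) with hWdef
    set x : ℝ := len (wt load) P / W with hx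
    have hx0 : 0 ≤ x := by positivity
    set Φ := phi src tgt F M
    set Φ' := phi src tgt F (M + vecMulVec (bv u v) (bv u v))
    have hΦ : 0 ≤ Φ := phi_nonneg hM
    have hΦ' : 0 ≤ Φ' := phi_nonneg hM'
    set y := Φ * x / (8 * sig) with hy
    have hy0 : 0 ≤ y := by positivity
    have hS := pw_nonneg (src := src) (tgt := tgt) (F := F) hM (Fintype.card E + 1)
    have h1 := pw_update (src := src) (tgt := tgt) (F := F) hM (Fintype.card E) u v
      (hI.ip_bv_le hc hE u v)
    have h2 := pw_mul_phi_le (src := src) (tgt := tgt) (F := F) hM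
    have h3 : pw src tgt F M (Fintype.card E + 2) * x ≤
        yv src tgt F M (Fintype.card E) u v * sig := by
      rw [hx, ← mul_div_assoc, div_le_iff₀ hW0]; exact hv.le
    have h4 : 4 * (pw src tgt F M (Fintype.card E + 1) * y) ≤
        yv src tgt F M (Fintype.card E) u v := by
      have h5 : pw src tgt F M (Fintype.card E + 1) * Φ * x ≤
          2 * pw src tgt F M (Fintype.card E + 2) * x := by gcongr
      rw [hy, ← mul_div_assoc, ← mul_div_assoc, div_le_iff₀ (by positivity)]
      nlinarith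
    have h6 : Φ' ^ (Fintype.card E + 1) ≤
        Φ ^ (Fintype.card E + 1) * (1 - (Fintype.card E + 1) * y) := by
      rw [phi_pow hM', phi_pow hM]
      nlinarith
    have h7 : Φ' * (1 + y) ≤ Φ := by
      refine le_of_pow_le_pow_left₀ (Nat.succ_ne_zero (Fintype.card E)) hΦ ?_
      have hb := one_add_mul_le_pow (a := -(y / (1 + y)))
        (by have : y / (1 + y) ≤ 1 := div_le_one_of_le₀ (by linarith) (by linarith); linarith)
        (Fintype.card E + 1)
      have h8 : (1 : ℝ) + -(y / (1 + y)) = (1 + y)⁻¹ := by field_simp; ring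
      have h9 : y / (1 + y) ≤ y := div_le_self hy0 (by linarith)
      rw [h8] at hb
      push_cast at hb
      have h10 : 1 - (Fintype.card E + 1) * y ≤ (1 + y)⁻¹ ^ (Fintype.card E + 1) := by nlinarith
      have h11 : Φ' ^ (Fintype.card E + 1) ≤
          Φ ^ (Fintype.card E + 1) * (1 + y)⁻¹ ^ (Fintype.card E + 1) :=
        h6.trans (by gcongr)
      calc (Φ' * (1 + y)) ^ (Fintype.card E + 1)
          = Φ' ^ (Fintype.card E + 1) * (1 + y) ^ (Fintype.card E + 1) := mul_pow _ _ _
        _ ≤ Φ ^ (Fintype.card E + 1) * (1 + y)⁻¹ ^ (Fintype.card E + 1) *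
            (1 + y) ^ (Fintype.card E + 1) := by gcongr
        _ = Φ ^ (Fintype.card E + 1) := by
            rw [mul_assoc, ← mul_pow, inv_mul_cancel₀ (by linarith), one_pow, mul_one]
    have h12 : ((len (wt (bump load P)) univ : ℕ) : ℝ) / Fintype.card E =
        W / Fintype.card E * (1 + x) := by
      rw [len_bump, hx]; push_cast; rw [← hWdef]; field_simp
    have h13 : Real.log (W / Fintype.card E * (1 + x)) ≤ Real.log (W / Fintype.card E) + x := by
      rw [Real.log_mul (by positivity) (by positivity)]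
      have := Real.log_le_sub_one_of_pos (x := 1 + x) (by positivity)
      linarith
    have h14 : 0 ≤ Real.log (W / Fintype.card E) :=
      Real.log_nonneg ((one_le_div hm).2 hWm)
    have h15 := hI.pot
    rw [h12]
    have h16 : Φ * x = 8 * sig * y := by rw [hy]; field_simp
    have h17 : Φ' * (Real.log (W / Fintype.card E) + x) * (1 + y) ≤ 8 * sig * (1 + y) :=
      calc Φ' * (Real.log (W / Fintype.card E) + x) * (1 + y)
          = Φ' * (1 + y) * (Real.log (W / Fintype.card E) + x) := by ring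
        _ ≤ Φ * (Real.log (W / Fintype.card E) + x) := by gcongr
        _ ≤ 8 * sig * (1 + y) := by
            change Φ * Real.log (W / Fintype.card E) ≤ _ at h15
            nlinarith
    have h18 := le_of_mul_le_mul_right h17 (by linarith)
    exact (mul_le_mul_of_nonneg_left h13 hΦ').trans h18
  · rw [len_bump]
    have : len (wt load) P ≤ len (wt load) univ := sum_le_sum_of_subset (subset_univ P)
    omega

theorem wt_le_len (load : E → ℕ) (e : E) : 2 ^ load e ≤ len (wt load) univ :=
  single_le_sum (f := wt load) (fun _ _ => Nat.zero_le _) (mem_univ e)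

/-- while the loop runs the total load is bounded -/
theorem sum_load_le (hW : len (wt load) univ < Fintype.card E * 2 ^ c0 (Fintype.card E)) :
    ∑ e, load e ≤ Fintype.card E * (c0 (Fintype.card E) + Fintype.card E) := by
  rw [← card_univ, ← smul_eq_mul]
  refine sum_le_card_nsmul _ _ _ fun e _ => ?_
  rw [card_univ]
  have h1 := wt_le_len load e
  have h2 : Fintype.card E ≤ 2 ^ Fintype.card E := Nat.lt_two_pow_self.le
  have h3 : 2 ^ load e < 2 ^ (c0 (Fintype.card E) + Fintype.card E) := by
    rw [pow_add, mul_comm]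
    exact (h1.trans_lt hW).trans_le (Nat.mul_le_mul_right _ h2)
  exact ((Nat.pow_lt_pow_iff_right (by norm_num)).1 h3).le

/-- the good outcome -/
theorem Inv.good (hI : Inv src tgt F sig M load) (hE : 0 < Fintype.card E) (hsig : 0 < sig)
    (hW : Fintype.card E * 2 ^ c0 (Fintype.card E) ≤ len (wt load) univ) :
    Good src tgt F (35 * sig) ((3 * c0 (Fintype.card E) : ℝ)⁻¹ • M) := by
  have hm : (0 : ℝ) < Fintype.card E := by exact_mod_cast hE
  have hc0 : (0 : ℝ) < c0 (Fintype.card E) := by unfold c0; positivity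
  refine ⟨posDef_smul hI.pd (by positivity), fun S => ⟨S.card / Fintype.card V, ?_⟩,
    fun e he => ?_⟩
  · rw [qf_smul, inv_mul_le_iff₀ (by positivity)]
    refine (hI.cut S).trans ?_
    rw [mul_comm, ← nsmul_eq_mul]
    refine sum_le_card_nsmul _ _ _ fun e _ => ?_
    have h1 := (wt_le_len load e).trans hI.tot
    have h2 : Fintype.card E ≤ 2 ^ Fintype.card E := Nat.lt_two_pow_self.le
    have h3 : 2 ^ load e ≤ 2 ^ (c0 (Fintype.card E) + (Fintype.card E + 1)) := by
      rw [pow_add, pow_succ]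
      refine h1.trans ?_
      have := Nat.mul_le_mul_right (2 ^ c0 (Fintype.card E)) h2
      nlinarith
    have h4 := (Nat.pow_le_pow_iff_right (by norm_num)).1 h3
    have h5 : Fintype.card E + 1 ≤ c0 (Fintype.card E) := by unfold c0; nlinarith
    have h6 : load e ≤ 2 * c0 (Fintype.card E) := by omega
    have h7 : (load e : ℝ) ≤ 2 * c0 (Fintype.card E) := by exact_mod_cast h6
    linarith
  · rw [ip_smul_self hI.pd (by positivity), div_inv_eq_mul]
    have h1 := res_le_phi (src := src) (tgt := tgt) hI.pd he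
    have h2 := hI.pot
    have h3 : (2 : ℝ) ^ c0 (Fintype.card E) ≤ len (wt load) univ / Fintype.card E := by
      rw [le_div_iff₀ hm, mul_comm]; exact_mod_cast hW
    have h4 : c0 (Fintype.card E) * Real.log 2 ≤
        Real.log (len (wt load) univ / Fintype.card E) := by
      rw [← Real.log_pow]; exact Real.log_le_log (by positivity) h3
    have h5 := Real.log_two_gt_d9
    have h6 := phi_nonneg (src := src) (tgt := tgt) (F := F) hI.pd
    have h7 : phi src tgt F M * (c0 (Fintype.card E) * 0.6931471803) ≤ 8 * sig :=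
      le_trans (by gcongr; exact le_trans (by gcongr) h4) h2
    change res src tgt M e * _ ≤ _
    have h8 : res src tgt M e * c0 (Fintype.card E) ≤ phi src tgt F M * c0 (Fintype.card E) := by
      gcongr
    nlinarith

/-- the rounded lengths of the certificate -/
def rlen (load : E → ℕ) (e : E) : ℕ := Fintype.card E * 2 ^ load e / len (wt load) univ + 1

theorem bv_ne_zero {u v : V} (h : u ≠ v) : bv u v ≠ 0 := fun h0 => by
  have := congrFun h0 u
  simp [bv, h] at this

/-- the certificate -/
theorem cert_of (hM : M.PosDef) (hne : ∀ e, src e ≠ tgt e) (hF : F.Nonempty) (hsig : 0 < sig)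
    {P : V → V → Finset E} (hP : ∀ u v, Best src tgt (wt load) (P u v) u v)
    (hv : ∀ u v, yv src tgt F M (Fintype.card E) u v * sig * len (wt load) univ ≤
      pw src tgt F M (Fintype.card E + 2) * len (wt load) (P u v)) :
    Cert src tgt F sig (rlen load) := by
  obtain ⟨e0, he0⟩ := hF
  have : Nonempty E := ⟨e0⟩
  have hE : 0 < Fintype.card E := Fintype.card_pos
  have hm : (0 : ℝ) < Fintype.card E := by exact_mod_cast hE
  have hWn : 0 < len (wt load) univ := hE.trans_le (card_le_len load)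
  have hW0 : (0 : ℝ) < len (wt load) univ := by exact_mod_cast hWn
  set S := pw src tgt F M (Fintype.card E + 2) with hS
  have hS0 : 0 < S := sum_pos (fun e _ => pow_pos (ip_pos hM (bv_ne_zero (hne e))) _) ⟨e0, he0⟩
  set W : ℝ := ((len (wt load) univ : ℕ) : ℝ) with hW
  set X : V → E → ℝ := fun u f => if f ∈ F then
    √(sig * Fintype.card E / S * res src tgt M f ^ Fintype.card E) *
      (M⁻¹ *ᵥ be src tgt f) u else 0 with hX
  have hXsq : ∀ u v f, (X u f - X v f) ^ 2 = if f ∈ F then sig * Fintype.card E / S *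
      (res src tgt M f ^ Fintype.card E * ip M (be src tgt f) (bv u v) ^ 2) else 0 := by
    intro u v f
    simp only [hX]
    split_ifs with hf
    · have := res_nonneg (src := src) (tgt := tgt) hM f
      rw [← mul_sub, mul_pow, Real.sq_sqrt (by positivity), ip_comm hM, ip, bv_dot]; ring
    · simp
  refine ⟨?_, fun u v => Fintype.card E / W * len (wt load) (P u v), X, fun u => ?_,
    fun u v => ?_, fun u v w => ?_, fun e => ?_, fun u v => ?_, ?_⟩
  · simp only [rlen, sum_add_distrib, sum_const, card_univ, smul_eq_mul, mul_one]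
    have h1 : (∑ e, Fintype.card E * 2 ^ load e / len (wt load) univ) * len (wt load) univ ≤
        Fintype.card E * len (wt load) univ := by
      rw [sum_mul]
      conv_rhs => rw [len, mul_sum]
      exact sum_le_sum fun e _ => Nat.div_mul_le_self _ _
    have := Nat.le_of_mul_le_mul_right h1 hWn
    omega
  · have := (hP u u).2 ∅ (joins_self _ _)
    simp only [len, sum_empty, nonpos_iff_eq_zero] at this
    simp [len, this]
  · have h1 := (hP u v).2 _ (hP v u).1.symm
    have h2 := (hP v u).2 _ (hP u v).1.symm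
    simp only [le_antisymm h1 h2]
  · have h1 := ((hP u w).2 _ ((hP u v).1.trans (hP v w).1)).trans (len_union_le _ _ _)
    have h2 : (len (wt load) (P u w) : ℝ) ≤ len (wt load) (P u v) + len (wt load) (P v w) := by
      exact_mod_cast h1
    simp only
    rw [← mul_add]; gcongr
  · have h1 := (hP (src e) (tgt e)).2 _ (joins_edge e)
    simp only [len, sum_singleton, wt] at h1
    have h2 : (len (wt load) (P (src e) (tgt e)) : ℝ) ≤ 2 ^ load e := by exact_mod_cast h1
    have h3 : Fintype.card E * 2 ^ load e ≤ rlen load e * len (wt load) univ := by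
      have := Nat.lt_div_mul_add (a := Fintype.card E * 2 ^ load e) hWn
      rw [rlen, add_mul, one_mul]; exact this.le
    have h4 : (Fintype.card E : ℝ) * 2 ^ load e ≤ rlen load e * W := by
      rw [hW]; exact_mod_cast h3
    simp only
    rw [div_mul_eq_mul_div, div_le_iff₀ hW0]
    exact le_trans (by gcongr) h4
  · simp only [hXsq]
    rw [sum_ite_mem, univ_inter, ← mul_sum]
    change _ * yv src tgt F M (Fintype.card E) u v ≤ _
    have h1 := hv u v
    rw [div_mul_eq_mul_div, div_mul_eq_mul_div, div_le_div_iff₀ hS0 hW0]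
    nlinarith
  · have : ∑ e ∈ F, (X (src e) e - X (tgt e) e) ^ 2 = sig * Fintype.card E / S * S := by
      rw [hS, pw, mul_sum]
      refine sum_congr rfl fun e he => ?_
      rw [hXsq, if_pos he]
      change _ * (_ * res src tgt M e ^ 2) = _
      rw [← pow_add]
      rfl
    rw [this, div_mul_cancel₀ _ hS0.ne']

end Crest.Agent.X37.Inner
end

-- ▼ part X37/Inner/BF
section

/-!
# Row 37, inner loop: lightest joining edge sets in polynomial time (Bellman-Ford with masks)
-/

set_option autoImplicit false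

open Finset

namespace Crest.Agent.X37.Inner

open Crest.Agent.Lib.PT Crest.Agent.X37.IO

/-- the weight of a mask -/
def lenL (m : ℕ) (w : List ℕ) (P : List Bool) : ℕ :=
  ∑ i ∈ range m, if P.getD i false = true then w.getD i 0 else 0

/-- a mask cut to length `m` -/
def cpE (m : ℕ) (P : List Bool) : List Bool := (List.range m).map fun j => P.getD j false

/-- a mask with one more edge -/
def addE (m : ℕ) (P : List Bool) (i : ℕ) : List Bool :=
  (List.range m).map fun j => P.getD j false || decide (j = i)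

/-- the candidate for the vertex `v` through the edge `i` -/
def cand (es : List (ℕ × ℕ)) (T : List (List Bool)) (v i : ℕ) : List Bool :=
  if (es.getD i (0, 0)).2 = v then addE es.length (T.getD (es.getD i (0, 0)).1 []) i
  else if (es.getD i (0, 0)).1 = v then addE es.length (T.getD (es.getD i (0, 0)).2 []) i
  else cpE es.length (T.getD v [])

/-- all candidates for the vertex `v` -/
def cands (es : List (ℕ × ℕ)) (T : List (List Bool)) (v : ℕ) : List (List Bool) :=
  cpE es.length (T.getD v []) :: (List.range es.length).map fun i => cand es T v i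

/-- the best candidate -/
def pick (es : List (ℕ × ℕ)) (w : List ℕ) (T : List (List Bool)) (v : ℕ) : List Bool :=
  ((cands es T v).argmin fun P => lenL es.length w P).getD []

/-- one round -/
def bfRound (n : ℕ) (es : List (ℕ × ℕ)) (w : List ℕ) (T : List (List Bool)) : List (List Bool) :=
  (List.range n).map fun v => pick es w T v

/-- the starting table -/
def bfInit (n m u : ℕ) : List (List Bool) :=
  (List.range n).map fun v => if v = u then [] else List.replicate m true

/-- the table of lightest sets from the source `u` -/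
def bfTab (n : ℕ) (es : List (ℕ × ℕ)) (w : List ℕ) (u : ℕ) : List (List Bool) :=
  (bfRound n es w)^[n] (bfInit n es.length u)

/-- a lightest set joining `u` and `v` -/
def bf (n : ℕ) (es : List (ℕ × ℕ)) (w : List ℕ) (u v : ℕ) : List Bool :=
  cpE es.length ((bfTab n es w u).getD v [])

theorem getD_map_range {β : Type*} {n i : ℕ} (f : ℕ → β) (d : β) (h : i < n) :
    ((List.range n).map f).getD i d = f i := by
  simp [List.getD_eq_getElem?_getD, h]

theorem mem_maskF {m : ℕ} {P : List Bool} {i : Fin m} :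
    i ∈ maskF m P ↔ P.getD i false = true := by simp [maskF]

theorem lenL_eq (m : ℕ) (w : List ℕ) (P : List Bool) :
    lenL m w P = len (fun e : Fin m => w.getD e 0) (maskF m P) := by
  rw [lenL, len, maskF, sum_filter, Finset.sum_range]

theorem maskF_cpE (m : ℕ) (P : List Bool) : maskF m (cpE m P) = maskF m P := by
  ext i
  rw [mem_maskF, mem_maskF, cpE, getD_map_range _ _ i.2]

theorem maskF_addE {m : ℕ} (P : List Bool) (i : Fin m) :
    maskF m (addE m P i) = insert i (maskF m P) := by
  ext j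
  rw [mem_insert, mem_maskF, mem_maskF, addE, getD_map_range _ _ j.2]
  simp [Fin.ext_iff, or_comm]

theorem maskF_nil (m : ℕ) : maskF m [] = ∅ := by
  ext i; simp [mem_maskF]

theorem maskF_replicate (m : ℕ) : maskF m (List.replicate m true) = univ := by
  ext i; simp [mem_maskF, List.getD_eq_getElem?_getD]

theorem pick_mem (es : List (ℕ × ℕ)) (w : List ℕ) (T : List (List Bool)) (v : ℕ) :
    pick es w T v ∈ cands es T v ∧
      ∀ P ∈ cands es T v, lenL es.length w (pick es w T v) ≤ lenL es.length w P := by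
  unfold pick
  rcases h : (cands es T v).argmin fun P => lenL es.length w P with _ | Q
  · rw [List.argmin_eq_none] at h
    simp [cands] at h
  · exact ⟨List.argmin_mem h, fun P hP => List.le_of_mem_argmin hP h⟩

theorem getD_src {n : ℕ} {es : List (ℕ × ℕ)} (h : Loopless n es) (i : Fin es.length) :
    (es.getD i (0, 0)).1 = srcF h i := by
  simp [srcF, List.getD_eq_getElem?_getD]

theorem getD_tgt {n : ℕ} {es : List (ℕ × ℕ)} (h : Loopless n es) (i : Fin es.length) :
    (es.getD i (0, 0)).2 = tgtF h i := by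
  simp [tgtF, List.getD_eq_getElem?_getD]

theorem best_bf {n : ℕ} {es : List (ℕ × ℕ)} (h : Loopless n es) (hc : Conn (srcF h) (tgtF h))
    (w : List ℕ) (u v : Fin n) :
    Best (srcF h) (tgtF h) (fun e => w.getD e 0) (maskF es.length (bf n es w u v)) u v := by
  set T : ℕ → List (List Bool) := fun k => (bfRound n es w)^[k] (bfInit n es.length u) with hT
  have hstep : ∀ k (v : Fin n), (T (k + 1)).getD v [] = pick es w (T k) v := by
    intro k v
    simp only [hT, Function.iterate_succ_apply']
    rw [bfRound, getD_map_range _ _ v.2]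
  have hcand : ∀ k (v : Fin n) (e : Fin es.length), maskF es.length (cand es (T k) v e) =
      if tgtF h e = v then insert e (maskF es.length ((T k).getD (srcF h e) []))
      else if srcF h e = v then insert e (maskF es.length ((T k).getD (tgtF h e) []))
      else maskF es.length ((T k).getD v []) := by
    intro k v e
    simp only [cand, getD_src h, getD_tgt h, Fin.ext_iff]
    split_ifs
    · exact maskF_addE _ e
    · exact maskF_addE _ e
    · exact maskF_cpE _ _
  have hle : ∀ k (v : Fin n) (e : Fin es.length),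
      len (fun e : Fin es.length => w.getD e 0) (maskF es.length ((T (k + 1)).getD v [])) ≤
        len (fun e : Fin es.length => w.getD e 0) (maskF es.length (cand es (T k) v e)) := by
    intro k v e
    rw [hstep, ← lenL_eq, ← lenL_eq]
    exact (pick_mem es w (T k) v).2 _ (List.mem_cons_of_mem _
      (List.mem_map.2 ⟨e, List.mem_range.2 e.2, rfl⟩))
  have := best_of_rounds (src := srcF h) (tgt := tgtF h) (fun e => w.getD e 0) (u := u)
    (P := fun k v => maskF es.length ((T k).getD v [])) ?_ ?_ ?_ ?_ ?_ ?_ v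
  · rw [bf, maskF_cpE]
    simpa [hT, bfTab] using this
  · simp only [hT, Function.iterate_zero, id]
    rw [bfInit, getD_map_range _ _ u.2, if_pos rfl, maskF_nil]
  · intro v
    simp only [hT, Function.iterate_zero, id]
    rw [bfInit, getD_map_range _ _ v.2]
    split_ifs with hv
    · rw [Fin.ext hv]; exact joins_self _ _
    · rw [maskF_replicate]; exact hc.joins u v
  · intro k v
    simp only [hstep]
    rcases List.mem_cons.1 (pick_mem es w (T k) v).1 with h1 | h1
    · left; rw [h1, maskF_cpE]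
    · obtain ⟨i, hi, h2⟩ := List.mem_map.1 h1
      have h3 := hcand k v ⟨i, List.mem_range.1 hi⟩
      rw [← h2]
      split_ifs at h3 with h4 h5
      · exact Or.inr ⟨_, Or.inl ⟨h4, h3⟩⟩
      · exact Or.inr ⟨_, Or.inr ⟨h5, h3⟩⟩
      · exact Or.inl h3
  · intro k v
    simp only [hstep]
    rw [← maskF_cpE es.length ((T k).getD v []), ← lenL_eq, ← lenL_eq]
    exact (pick_mem es w (T k) v).2 _ List.mem_cons_self
  · intro k e
    have := hle k (tgtF h e) e
    rwa [hcand, if_pos rfl] at this
  · intro k e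
    have := hle k (srcF h e) e
    rwa [hcand, if_neg (srcF_ne_tgtF h e).symm, if_pos rfl] at this

/-! ### polynomial time -/

theorem length_cand (es : List (ℕ × ℕ)) (T : List (List Bool)) (v i : ℕ) :
    (cand es T v i).length = es.length := by
  unfold cand
  split_ifs <;> simp [addE, cpE]

theorem sz_pick_le (es : List (ℕ × ℕ)) (w : List ℕ) (T : List (List Bool)) (v : ℕ) :
    sz (pick es w T v) ≤ 4 * es.length + 1 := by
  refine (sz_boolList_le _).trans ?_
  rcases List.mem_cons.1 (pick_mem es w T v).1 with h1 | h1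
  · rw [h1]; simp [cpE]
  · obtain ⟨i, -, h2⟩ := List.mem_map.1 h1
    rw [← h2, length_cand]

theorem sz_bf_le (n : ℕ) (es : List (ℕ × ℕ)) (w : List ℕ) (u v : ℕ) :
    sz (bf n es w u v) ≤ 4 * es.length + 1 :=
  (sz_boolList_le _).trans (by simp [bf, cpE])

section pt

universe u
variable {α : Type u} [Enc α]

@[fun_prop] theorem lenL_pt {m : α → ℕ} {w : α → List ℕ} {P : α → List Bool} (hm : PT m)
    (hb : PB m) (hw : PT w) (hP : PT P) : PT fun a => lenL (m a) (w a) (P a) := by
  unfold lenL; fun_prop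

@[fun_prop] theorem cpE_pt {m : α → ℕ} {P : α → List Bool} (hm : PT m) (hb : PB m) (hP : PT P) :
    PT fun a => cpE (m a) (P a) := by
  unfold cpE; fun_prop

@[fun_prop] theorem addE_pt {m i : α → ℕ} {P : α → List Bool} (hm : PT m) (hb : PB m) (hP : PT P)
    (hi : PT i) : PT fun a => addE (m a) (P a) (i a) := by
  unfold addE; fun_prop

@[fun_prop] theorem cand_pt {es : α → List (ℕ × ℕ)} {T : α → List (List Bool)} {v i : α → ℕ}
    (hes : PT es) (hT : PT T) (hv : PT v) (hi : PT i) :
    PT fun a => cand (es a) (T a) (v a) (i a) := by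
  unfold cand; fun_prop

@[fun_prop] theorem cands_pt {es : α → List (ℕ × ℕ)} {T : α → List (List Bool)} {v : α → ℕ}
    (hes : PT es) (hT : PT T) (hv : PT v) : PT fun a => cands (es a) (T a) (v a) := by
  unfold cands; fun_prop

@[fun_prop] theorem pick_pt {es : α → List (ℕ × ℕ)} {w : α → List ℕ} {T : α → List (List Bool)}
    {v : α → ℕ} (hes : PT es) (hw : PT w) (hT : PT T) (hv : PT v) :
    PT fun a => pick (es a) (w a) (T a) (v a) := by
  unfold pick; fun_prop

@[fun_prop] theorem bfRound_pt {n : α → ℕ} {es : α → List (ℕ × ℕ)} {w : α → List ℕ}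
    {T : α → List (List Bool)} (hn : PT n) (hb : PB n) (hes : PT es) (hw : PT w) (hT : PT T) :
    PT fun a => bfRound (n a) (es a) (w a) (T a) := by
  unfold bfRound; fun_prop

@[fun_prop] theorem bfInit_pt {n m u : α → ℕ} (hn : PT n) (hb : PB n) (hm : PT m) (hb' : PB m)
    (hu : PT u) : PT fun a => bfInit (n a) (m a) (u a) := by
  unfold bfInit; fun_prop

@[fun_prop] theorem bfTab_pt {n u : α → ℕ} {es : α → List (ℕ × ℕ)} {w : α → List ℕ}
    (hn : PT n) (hb : PB n) (hes : PT es) (hw : PT w) (hu : PT u) :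
    PT fun a => bfTab (n a) (es a) (w a) (u a) := by
  unfold bfTab
  refine PT.iterate (f := fun a T => bfRound (n a) (es a) (w a) T) hn hb (by fun_prop)
    (by fun_prop) (B := fun a => n a * (4 * (es a).length + 1 + 1) + 1) (by fun_prop) ?_
  intro a k _
  rcases k with _ | k
  · refine (sz_list_le (B := 4 * (es a).length + 1) fun P hP => ?_).trans (by simp [bfInit])
    obtain ⟨v, -, rfl⟩ := List.mem_map.1 hP
    refine (sz_boolList_le _).trans ?_
    split_ifs <;> simp
  · rw [Function.iterate_succ_apply']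
    refine (sz_list_le (B := 4 * (es a).length + 1) fun P hP => ?_).trans (by simp [bfRound])
    obtain ⟨v, -, rfl⟩ := List.mem_map.1 hP
    exact sz_pick_le _ _ _ _

@[fun_prop] theorem bf_pt {n u v : α → ℕ} {es : α → List (ℕ × ℕ)} {w : α → List ℕ}
    (hn : PT n) (hb : PB n) (hes : PT es) (hw : PT w) (hu : PT u) (hv : PT v) :
    PT fun a => bf (n a) (es a) (w a) (u a) (v a) := by
  unfold bf; fun_prop

end pt

end Crest.Agent.X37.Inner
end

-- ▼ part X37/Outer/Main
section

/-!
# Row 37 (thin trees): the outer loop and the main lemma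
-/

set_option autoImplicit false

namespace Crest.Agent.X37.Outer

open Finset Crest.Agent.Lib.PT Crest.Agent.X37.IO Crest.Agent.X37.Inner
open Crest.CombinatoricsR.Multigraph

/-- the constant of the geometric lemma for `K = r ^ 3`, `del = 1 / r ^ 3`, `gap = r ^ 11` -/
theorem geom_of_lemmaB (h : LemmaB) : ∃ A : ℕ, 1 ≤ A ∧
    ∀ (V E : Type) [Fintype V] [DecidableEq V] [Fintype E] [DecidableEq E] (src tgt : E → V)
      (k r : ℕ), 1 ≤ k → 1 ≤ r → k ≤ r ^ 13 → PC src tgt (k + (r : ℝ) ^ 11) univ →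
      ∃ σ : ℝ, GeomBound src tgt (Rel src tgt k) ((r : ℝ) ^ 3) σ ∧
        4 * (σ + 1 / (r : ℝ) ^ 3) < A / (r : ℝ) ^ 3 := by
  obtain ⟨C, hC, h⟩ := h
  obtain ⟨c, hc⟩ : ∃ c : ℕ, max C 8 < 2 ^ c := pow_unbounded_of_one_lt _ one_lt_two
  have hc1 : C ≤ 2 ^ c := (le_max_left _ _).trans hc.le
  have hc2 : (8 : ℝ) ≤ 2 ^ c := (le_max_right _ _).trans hc.le
  obtain ⟨A, hA⟩ : ∃ A : ℕ, 4 * (19 + 12 * C * (c + 20)) < A := exists_nat_gt _
  have hA1 : 1 ≤ A := by
    have : (0 : ℝ) < A := lt_of_le_of_lt (by positivity) hA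
    exact Nat.cast_pos.1 this
  refine ⟨A, hA1, fun V E _ _ _ _ src tgt k r hk hr hkr hpc => ?_⟩
  have hr1 : (1 : ℝ) ≤ r := by exact_mod_cast hr
  have hr0 : (0 : ℝ) < r := by linarith
  have hr3 : (1 : ℝ) ≤ (r : ℝ) ^ 3 := one_le_pow₀ hr1
  have hr2 : (r : ℝ) ≤ 2 ^ r := by exact_mod_cast (Nat.lt_two_pow_self (n := r)).le
  have h16 : (r : ℝ) ^ 16 ≤ 2 ^ (16 * r) := by
    rw [mul_comm, pow_mul]
    exact pow_le_pow_left₀ hr0.le hr2 16
  have hkr' : (k : ℝ) ≤ (r : ℝ) ^ 13 := by exact_mod_cast hkr
  refine ⟨_, h V E src tgt k ((r : ℝ) ^ 11) ((r : ℝ) ^ 3) (1 / (r : ℝ) ^ 3) (c + 16 * r) hk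
    (by positivity) hpc hr3 (by positivity) (div_le_one_of_le₀ hr3 (by positivity)) ?_ ?_, ?_⟩
  · rw [pow_add, one_div, inv_mul_eq_div, le_div_iff₀ (by positivity)]
    refine mul_le_mul hc1 (le_trans ?_ h16) (by positivity) (by positivity)
    exact pow_le_pow_right₀ hr1 (by norm_num)
  · rw [pow_add, mul_assoc]
    refine mul_le_mul hc2 (le_trans ?_ h16) (by positivity) (by positivity)
    calc (k : ℝ) * (r : ℝ) ^ 3 ≤ (r : ℝ) ^ 13 * (r : ℝ) ^ 3 := by gcongr
      _ = (r : ℝ) ^ 16 := by ring
  · have e1 : ((c + 16 * r : ℕ) : ℝ) + 4 * (r : ℝ) ^ 3 ≤ (c + 20) * (r : ℝ) ^ 3 := by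
      have h1 : (r : ℝ) ≤ (r : ℝ) ^ 3 := le_self_pow₀ hr1 (by norm_num)
      have h2 : (c : ℝ) ≤ c * (r : ℝ) ^ 3 := le_mul_of_one_le_right (by positivity) hr3
      push_cast
      linarith
    have e2 : (2 + 12 * C * (((c + 16 * r : ℕ) : ℝ) + 4 * (r : ℝ) ^ 3) / (1 / (r : ℝ) ^ 3)) /
        (r : ℝ) ^ 11 ≤ (2 + 12 * C * (c + 20)) / (r : ℝ) ^ 3 := by
      rw [div_le_div_iff₀ (by positivity) (by positivity), div_div_eq_mul_div, div_one]
      have h8 : (1 : ℝ) ≤ (r : ℝ) ^ 8 := one_le_pow₀ hr1
      have h68 : (r : ℝ) ^ 3 * (r : ℝ) ^ 3 ≤ (r : ℝ) ^ 8 := by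
        rw [← pow_add]
        exact pow_le_pow_right₀ hr1 (by norm_num)
      have h3 : 12 * C * (((c + 16 * r : ℕ) : ℝ) + 4 * (r : ℝ) ^ 3) * (r : ℝ) ^ 3 ≤
          12 * C * (c + 20) * (r : ℝ) ^ 8 := by
        calc _ ≤ 12 * C * ((c + 20) * (r : ℝ) ^ 3) * (r : ℝ) ^ 3 := by gcongr
          _ = 12 * C * (c + 20) * ((r : ℝ) ^ 3 * (r : ℝ) ^ 3) := by ring
          _ ≤ _ := by gcongr
      calc _ ≤ ((2 + 12 * C * (c + 20)) * (r : ℝ) ^ 8) * (r : ℝ) ^ 3 := by
            gcongr
            linarith
        _ = _ := by ring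
    have e3 : 4 * (19 + 12 * C * (c + 20)) / (r : ℝ) ^ 3 < A / (r : ℝ) ^ 3 := by gcongr
    refine lt_of_le_of_lt ?_ e3
    have e4 : 4 * (19 + 12 * C * (c + 20)) / (r : ℝ) ^ 3 = 4 * (16 * (1 / (r : ℝ) ^ 3) +
        (2 + 12 * C * (c + 20)) / (r : ℝ) ^ 3 + 1 / (r : ℝ) ^ 3) := by ring
    rw [e4]
    linarith

theorem cert_of {V E : Type} [Fintype V] [DecidableEq V] [Fintype E] {src tgt : E → V}
    {F : Finset E} {sig : ℝ} {l : E → ℕ} (h : Inner.Cert src tgt F sig l) :
    Cert src tgt F (fun e => (l e : ℝ)) (sig * Fintype.card E) := by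
  obtain ⟨-, d, X, h1, h2, h3, h4, h5, h6⟩ := h
  exact ⟨d, X, ⟨h1, h2, h3⟩, h4, h5, h6⟩

theorem good_default {n : ℕ} (hn : n ≤ 1) {E : Type} [Fintype E] [IsEmpty E]
    (src tgt : E → Fin n) (F : Finset E) (ρ : ℝ) : Good src tgt F ρ (matR n [[1]]) := by
  have : Subsingleton (Fin n) := Fin.subsingleton_iff_le_one.2 hn
  have e : matR n [[1]] = 1 := by
    ext i j
    have hi : (i : ℕ) = 0 := by omega
    have hj : (j : ℕ) = 0 := by omega
    rw [Subsingleton.elim j i]
    simp [matR, hi]
  refine ⟨e ▸ Matrix.PosDef.one, fun S => ?_, fun e => isEmptyElim e⟩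
  by_cases hS : S = ∅
  · refine ⟨0, le_of_eq_of_le ?_ (Nat.cast_nonneg _)⟩
    have : ind S 0 = 0 := by
      funext v
      simp [ind, hS]
    simp [this, qf]
  · refine ⟨1, le_of_eq_of_le ?_ (Nat.cast_nonneg _)⟩
    obtain ⟨u, hu⟩ := Finset.nonempty_iff_ne_empty.2 hS
    have : ind S 1 = 0 := by
      funext v
      simp [ind, Subsingleton.elim v u, hu]
    simp [this, qf]

/-- **The main lemma** from its three parts. -/
theorem main_of (hB : LemmaB) (hG : GreedyStatement) (hI : InnerStatement) : MainStatement := by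
  classical
  obtain ⟨A, hA, hB⟩ := geom_of_lemmaB hB
  obtain ⟨gr, hgr, hG⟩ := hG
  obtain ⟨inner, hinner, hI⟩ := hI
  let Fm : Un × ℕ × ℕ × List (ℕ × ℕ) → List ℕ → List Bool := fun a L =>
    gr (a.1, a.2.1, a.2.2.2, L.map fun x : ℕ => (x : ℚ))
  let out : Un × ℕ × ℕ × List (ℕ × ℕ) → List ℕ → Bool × List (List ℚ) × List ℕ := fun a L =>
    inner (a.1, a.2.2.2, Fm a L, (A : ℚ) / ((a.2.2.1 * a.2.2.1 * a.2.2.1 : ℕ) : ℚ))
  let step : Un × ℕ × ℕ × List (ℕ × ℕ) → List ℕ → List ℕ := fun a L =>
    bif (out a L).1 then L else List.zipWith (fun x y => x + y) L (out a L).2.2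
  have hFm : PT fun p : (Un × ℕ × ℕ × List (ℕ × ℕ)) × List ℕ => Fm p.1 p.2 :=
    hgr.comp (by fun_prop)
  have hout : PT fun p : (Un × ℕ × ℕ × List (ℕ × ℕ)) × List ℕ => out p.1 p.2 :=
    hinner.comp (PT.pair (by fun_prop) (PT.pair (by fun_prop) (PT.pair hFm (by fun_prop))))
  have hstep : PT fun p : (Un × ℕ × ℕ × List (ℕ × ℕ)) × List ℕ => step p.1 p.2 :=
    PT.cond hout.fst (by fun_prop) (PT.zipWith (f := fun _ x y => x + y) (by fun_prop)
      hout.snd.snd (by fun_prop))
  obtain ⟨Lf, hLf, hLf'⟩ := exists_pt_iterate (α := Un × ℕ × ℕ × List (ℕ × ℕ))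
    (n := fun a => a.2.2.2.length) (s := fun a => List.replicate a.2.2.2.length (2 * a.2.2.2.length))
    (f := step) (by fun_prop) (by fun_prop) (by fun_prop) hstep
    (B := fun a => a.2.2.2.length * (4 * (2 * a.2.2.2.length * (a.2.2.2.length + 1)) + 1 + 1) + 1)
    (by fun_prop)
  refine ⟨35 * A, fun a => if a.2.2.2 = [] then ([], [[1]]) else (Fm a (Lf a), (out a (Lf a)).2.1),
    by positivity, ?_, fun n k r es h hk hr hkr hpc => ?_⟩
  · refine PT.ite (by fun_prop) (PT.const _) (PT.pair ?_ ?_)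
    · exact hFm.comp (PT.pair PT.id hLf)
    · exact (hout.comp (PT.pair PT.id hLf)).snd.fst
  have hk0 : (0 : ℝ) < k := by exact_mod_cast hk
  have hr0 : (0 : ℝ) < r := by exact_mod_cast hr
  by_cases hes : es = []
  · subst hes
    have hn : n ≤ 1 := by
      by_contra hn
      obtain ⟨e, -, -⟩ := hpc.exists_cut (by positivity) (S := {⟨0, by omega⟩})
        (mem_singleton_self _) (v := ⟨1, by omega⟩) (by simp [Fin.ext_iff])
      exact e.elim0
    have : IsEmpty (Fin ([] : List (ℕ × ℕ)).length) := Fin.isEmpty'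
    simp only [if_true]
    refine ⟨fun f => ?_, good_default hn _ _ _ _⟩
    have h1 : ((univ.image f).card : ℝ) ≤ 1 := by
      have := (card_image_le (s := (univ : Finset (Fin n))) (f := f))
      rw [card_univ, Fintype.card_fin] at this
      exact_mod_cast this.trans hn
    exact le_trans (mul_nonpos_of_nonneg_of_nonpos hk0.le (by linarith)) (Nat.cast_nonneg _)
  simp only [if_neg hes]
  set a : Un × ℕ × ℕ × List (ℕ × ℕ) := (⟨n⟩, k, r, es) with ha
  set m := es.length with hm
  have hm0 : 0 < m := List.length_pos_iff.2 hes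
  have hne : Nonempty (Fin n) := ⟨srcF h ⟨0, hm0⟩⟩
  have hpck : PC (srcF h) (tgtF h) k univ := hpc.of_le (le_add_of_nonneg_right (by positivity))
  have hconn : Conn (srcF h) (tgtF h) := by
    intro S hS hS'
    obtain ⟨u, hu⟩ := hS
    obtain ⟨v, hv⟩ : ∃ v, v ∉ S := by
      by_contra hv
      exact hS' (eq_univ_iff_forall.2 fun v => not_not.1 fun h => hv ⟨v, h⟩)
    obtain ⟨e, -, he⟩ := hpck.exists_cut hk0 hu hv
    exact ⟨e, mem_filter.2 ⟨mem_univ _, he⟩⟩
  set sig : ℚ := (A : ℚ) / ((r * r * r : ℕ) : ℚ) with hsig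
  have hsig0 : 0 < sig := by positivity
  have hsigR : (sig : ℝ) = A / (r : ℝ) ^ 3 := by
    rw [hsig]
    push_cast
    ring
  -- one round
  have hgreedy : ∀ L : List ℕ, L.length = m →
      IsGreedy (srcF h) (tgtF h) k (fun e => ((L.getD e 0 : ℕ) : ℝ)) univ (maskF m (Fm a L)) := by
    intro L hL
    refine (hG n k es (L.map fun x : ℕ => (x : ℚ)) h hk (by simpa using hL)).congr
      fun e _ f _ hef => ?_
    have e1 : ∀ i : ℕ, (L.map fun x : ℕ => (x : ℚ)).getD i 0 = ((L.getD i 0 : ℕ) : ℚ) := fun i => by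
      simpa using List.getD_map (f := fun x : ℕ => (x : ℚ)) (l := L) (d := 0) (n := i)
    rw [e1, e1] at hef
    exact_mod_cast hef
  have hround : ∀ L : List ℕ, L.length = m →
      ((out a L).1 = true → Good (srcF h) (tgtF h) (maskF m (Fm a L)) (35 * sig)
        (matR n (out a L).2.1)) ∧
      ((out a L).1 = false → (out a L).2.2.length = m ∧
        Inner.Cert (srcF h) (tgtF h) (maskF m (Fm a L)) sig
          (fun e => (out a L).2.2.getD e 0)) := by
    intro L hL
    refine hI n es (Fm a L) sig h hsig0 hconn ?_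
    obtain ⟨e, he, -⟩ := ((hgreedy L hL).pc hpck).exists_cut hk0 (S := {srcF h ⟨0, hm0⟩})
      (mem_singleton_self _) (v := tgtF h ⟨0, hm0⟩)
      (by simpa using (srcF_ne_tgtF h ⟨0, hm0⟩).symm)
    exact ⟨e, he⟩
  set L : ℕ → List ℕ := fun i => (step a)^[i] (List.replicate m (2 * m)) with hL
  have hLs : ∀ i, L (i + 1) = step a (L i) := fun i => Function.iterate_succ_apply' _ _ _
  have hadd : ∀ L : List ℕ, L.length = m → (out a L).1 = false →
      (step a L).length = m ∧ ∀ e : Fin m, (step a L).getD e 0 =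
        L.getD e 0 + (out a L).2.2.getD e 0 ∧ (out a L).2.2.getD e 0 ≤ 2 * m := by
    intro L hL hf
    obtain ⟨h1, h2⟩ := (hround L hL).2 hf
    have e1 : step a L = List.zipWith (fun x y => x + y) L (out a L).2.2 := by
      simp only [step, hf, cond_false]
    refine ⟨by rw [e1, List.length_zipWith, hL, h1, min_self], fun e => ⟨?_, ?_⟩⟩
    · rw [e1, List.getD_eq_getElem _ _ (by rw [List.length_zipWith, hL, h1, min_self]; exact e.2),
        List.getD_eq_getElem _ _ (by rw [hL]; exact e.2),
        List.getD_eq_getElem _ _ (by rw [h1]; exact e.2), List.getElem_zipWith]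
    · have h3 := h2.1
      rw [Fintype.card_fin] at h3
      exact le_trans (single_le_sum (f := fun e : Fin m => (out a L).2.2.getD e 0)
        (fun _ _ => Nat.zero_le _) (mem_univ e)) h3
  have hstay : ∀ L : List ℕ, (out a L).1 = true → step a L = L := fun L ht => by
    simp only [step, ht, cond_true]
  have hinv : ∀ i, (L i).length = m ∧ ∀ e : Fin m, (L i).getD e 0 ≤ 2 * m * (i + 1) := by
    intro i
    induction i with
    | zero =>
      refine ⟨by simp [hL], fun e => ?_⟩
      simp [hL, List.getD_eq_getElem?_getD]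
    | succ i ih =>
      rw [hLs]
      cases hf : (out a (L i)).1
      · obtain ⟨h1, h2⟩ := hadd _ ih.1 hf
        refine ⟨h1, fun e => ?_⟩
        rw [(h2 e).1, Nat.mul_succ]
        exact Nat.add_le_add (ih.2 e) (h2 e).2
      · rw [hstay _ hf]
        exact ⟨ih.1, fun e => (ih.2 e).trans (Nat.mul_le_mul_left _ (Nat.le_succ _))⟩
  have hLfa : Lf a = L m := by
    refine hLf' a fun i hi => ?_
    change sz (L i) ≤ m * (4 * (2 * m * (m + 1)) + 1 + 1) + 1
    refine (sz_list_le (B := 4 * (2 * m * (m + 1)) + 1) fun x hx => ?_).trans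
      (by rw [(hinv i).1])
    obtain ⟨j, hj, rfl⟩ := List.getElem_of_mem hx
    have h1 := (hinv i).2 ⟨j, (hinv i).1 ▸ hj⟩
    rw [List.getD_eq_getElem _ _ hj] at h1
    have h2 : 2 * m * (i + 1) ≤ 2 * m * (m + 1) := Nat.mul_le_mul_left _ (Nat.succ_le_succ hi)
    have := sz_nat_le_self (L i)[j]
    omega
  -- the loop stops
  have hfin : (out a (L m)).1 = true := by
    by_contra hcon
    have hall : ∀ i ≤ m, (out a (L i)).1 = false := by
      intro i hi
      by_contra hi'
      have hi'' : (out a (L i)).1 = true := by simpa using hi'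
      have : ∀ j, L (i + j) = L i := by
        intro j
        induction j with
        | zero => rfl
        | succ j ih => rw [← Nat.add_assoc, hLs, ih, hstay _ hi'']
      have h1 := this (m - i)
      rw [Nat.add_sub_cancel' hi] at h1
      exact hcon (h1 ▸ hi'')
    obtain ⟨σ, hσ, hlt⟩ := hB (Fin n) (Fin m) (srcF h) (tgtF h) k r hk hr hkr hpc
    have hdiff : ∀ i < m, ∀ e : Fin m, (((L (i + 1)).getD e 0 : ℕ) : ℝ) =
        ((L i).getD e 0 : ℕ) + ((out a (L i)).2.2.getD e 0 : ℕ) := fun i hi e => by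
      rw [hLs, ((hadd _ (hinv i).1 (hall i hi.le)).2 e).1, Nat.cast_add]
    have hm1 : (1 : ℝ) ≤ m := by exact_mod_cast hm0
    have key := rounds_le (b := 2 * m) (val := sig * m) hσ (by positivity)
      (fun _ _ _ _ hs hR => hR.mono hs) (by linarith) m
      (fun i e => (((L i).getD e 0 : ℕ) : ℝ)) (fun i => maskF m (Fm a (L i)))
      (fun e => by simp [hL, List.getD_eq_getElem?_getD])
      (fun i hi e => by rw [hdiff i hi e]; exact le_add_of_nonneg_right (Nat.cast_nonneg _))
      (fun i hi e => by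
        rw [hdiff i hi e]
        have := ((hadd _ (hinv i).1 (hall i hi.le)).2 e).2
        have h2 : (((out a (L i)).2.2.getD e 0 : ℕ) : ℝ) ≤ 2 * m := by exact_mod_cast this
        linarith)
      (fun i hi => by
        have := cert_of ((hround _ (hinv i).1).2 (hall i hi.le)).2
        rw [Fintype.card_fin] at this
        exact this.mono (fun e => by rw [hdiff i hi e]; linarith) le_rfl)
      (fun i _ e he s hs => (hgreedy _ (hinv i).1).not_rel_filter he hs)
    have hsum : ∀ i ≤ m, ∑ e : Fin m, (((L i).getD e 0 : ℕ) : ℝ) ≤ 2 * m * (m + i) := by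
      intro i hi
      induction i with
      | zero => simp [hL, List.getD_eq_getElem?_getD, mul_comm]
      | succ i ih =>
        simp only [hdiff i hi, sum_add_distrib]
        have h1 := ((hround _ (hinv i).1).2 (hall i (Nat.le_of_succ_le hi))).2.1
        rw [Fintype.card_fin] at h1
        have h2 : ∑ e : Fin m, (((out a (L i)).2.2.getD e 0 : ℕ) : ℝ) ≤ 2 * m := by
          exact_mod_cast h1
        have := ih (Nat.le_of_succ_le hi)
        push_cast
        linarith
    have hpos : 0 < (m : ℝ) * (sig * m) := by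
      have : (0 : ℝ) < sig := by exact_mod_cast hsig0
      positivity
    have hs0 : 0 ≤ ∑ e : Fin m, (((L m).getD e 0 : ℕ) : ℝ) :=
      sum_nonneg fun _ _ => Nat.cast_nonneg _
    have hσ0 : 0 ≤ σ + 1 / (r : ℝ) ^ 3 := by
      by_contra hneg
      have := mul_nonpos_of_nonpos_of_nonneg (not_le.1 hneg).le hs0
      linarith
    have h5 := key.trans (mul_le_mul_of_nonneg_left (hsum m le_rfl) hσ0)
    rw [← hsigR] at hlt
    have h6 : (m : ℝ) * m * (4 * (σ + 1 / (r : ℝ) ^ 3)) < m * m * sig :=
      mul_lt_mul_of_pos_left hlt (by positivity)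
    linarith
  rw [hLfa]
  refine ⟨(hgreedy _ (hinv m).1).pc hpck, ?_⟩
  have := (hround _ (hinv m).1).1 hfin
  rwa [hsigR, ← mul_div_assoc] at this

end Crest.Agent.X37.Outer
end

-- ▼ part X37/Inner/Main

/-!
# Row 37, inner loop: the algorithm, its correctness and its running time

The state is the list of the routed pairs with their edge sets.
-/

set_option autoImplicit false

open Finset Matrix

namespace Crest.Agent.X37.Inner

open Crest.Agent.Lib.PT Crest.Agent.X37.IO

/-- routed pairs with their edge sets -/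
abbrev St := List (ℕ × ℕ × List Bool)

/-- the load of an edge -/
def loadL (A : St) (i : ℕ) : ℕ := A.countP fun a => a.2.2.getD i false

/-- the weights -/
def wL (m : ℕ) (A : St) : List ℕ := (List.range m).map fun i => 2 ^ loadL A i

/-- the total weight -/
def totL (m : ℕ) (A : St) : ℕ := ∑ i ∈ range m, 2 ^ loadL A i

/-- entries of the incidence vector of a pair -/
def bq (u v i : ℕ) : ℚ := (if i = u then 1 else 0) - (if i = v then 1 else 0)

/-- entries of the current matrix -/
def matq (es : List (ℕ × ℕ)) (A : St) (i j : ℕ) : ℚ :=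
  (c0 es.length : ℚ) * ∑ e ∈ range es.length,
      bq (es.getD e (0, 0)).1 (es.getD e (0, 0)).2 i * bq (es.getD e (0, 0)).1 (es.getD e (0, 0)).2 j
    + 1 + (A.map fun a => bq a.1 a.2.1 i * bq a.1 a.2.1 j).sum

/-- the inverse of the current matrix -/
noncomputable def invq (n : ℕ) (es : List (ℕ × ℕ)) (A : St) : List (List ℚ) :=
  PT.invL n (PT.tab n n (matq es A))

/-- the bilinear form of a table on two incidence vectors -/
def ipq (G : List (List ℚ)) (a b c d : ℕ) : ℚ :=
  PT.ent G a c - PT.ent G a d - (PT.ent G b c - PT.ent G b d)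

/-- resistances -/
def resq (G : List (List ℚ)) (es : List (ℕ × ℕ)) (e : ℕ) : ℚ :=
  ipq G (es.getD e (0, 0)).1 (es.getD e (0, 0)).2 (es.getD e (0, 0)).1 (es.getD e (0, 0)).2

/-- the power sum -/
def pwq (G : List (List ℚ)) (es : List (ℕ × ℕ)) (F : List Bool) : ℚ :=
  ∑ e ∈ range es.length, if F.getD e false = true then resq G es e ^ (es.length + 2) else 0

/-- the squared distances -/
def yvq (G : List (List ℚ)) (es : List (ℕ × ℕ)) (F : List Bool) (u v : ℕ) : ℚ :=
  ∑ e ∈ range es.length, if F.getD e false = true then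
    resq G es e ^ es.length * ipq G (es.getD e (0, 0)).1 (es.getD e (0, 0)).2 u v ^ 2 else 0

/-- the test for a pair -/
def bad (n : ℕ) (es : List (ℕ × ℕ)) (F : List Bool) (sig : ℚ) (G : List (List ℚ)) (w : List ℕ)
    (W : ℕ) (p : ℕ × ℕ) : Bool :=
  decide (pwq G es F * (lenL es.length w (bf n es w p.1 p.2) : ℚ) < yvq G es F p.1 p.2 * sig * W)

/-- a violated pair -/
noncomputable def viol (n : ℕ) (es : List (ℕ × ℕ)) (F : List Bool) (sig : ℚ) (A : St) :
    Option (ℕ × ℕ) :=
  ((List.range n).product (List.range n)).find?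
    (bad n es F sig (invq n es A) (wL es.length A) (totL es.length A))

/-- one step -/
noncomputable def stepL (n : ℕ) (es : List (ℕ × ℕ)) (F : List Bool) (sig : ℚ) (A : St) : St :=
  if totL es.length A < es.length * 2 ^ c0 es.length then
    (viol n es F sig A).elim A fun p => (p.1, p.2, bf n es (wL es.length A) p.1 p.2) :: A
  else A

/-- the final state -/
noncomputable def runL (n : ℕ) (es : List (ℕ × ℕ)) (F : List Bool) (sig : ℚ) : St :=
  (stepL n es F sig)^[es.length * (c0 es.length + es.length) + 1] []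

/-- the output read from a state -/
def outL (n : ℕ) (es : List (ℕ × ℕ)) (A : St) : Bool × List (List ℚ) × List ℕ :=
  (decide (es.length * 2 ^ c0 es.length ≤ totL es.length A),
    PT.tab n n fun i j => (3 * c0 es.length : ℚ)⁻¹ * matq es A i j,
    (List.range es.length).map fun i => es.length * 2 ^ loadL A i / totL es.length A + 1)

/-- the inner loop -/
noncomputable def inner (a : Un × List (ℕ × ℕ) × List Bool × ℚ) : Bool × List (List ℚ) × List ℕ :=
  outL a.1.n a.2.1 (runL a.1.n a.2.1 a.2.2.1 a.2.2.2)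

/-! ### correctness -/

section correct

variable {n : ℕ} {es : List (ℕ × ℕ)}

/-- the real matrix of a state -/
def MA (n : ℕ) (es : List (ℕ × ℕ)) (A : St) : Matrix (Fin n) (Fin n) ℝ := PT.matR n (matq es A)

/-- the loads of a state -/
def LA (m : ℕ) (A : St) : Fin m → ℕ := fun e => loadL A e

theorem cast_bq (u v i : Fin n) : ((bq u v i : ℚ) : ℝ) = bv u v i := by
  simp only [bq, bv, Pi.sub_apply, Pi.single_apply, Fin.ext_iff]
  split_ifs <;> simp

theorem MA_nil (h : Loopless n es) : MA n es [] = M0 (srcF h) (tgtF h) := by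
  ext i j
  simp only [MA, PT.matR_apply, matq, M0, List.map_nil, List.sum_nil, add_zero, Matrix.add_apply,
    Matrix.smul_apply, Matrix.sum_apply, vecMulVec_apply, Fintype.card_fin, smul_eq_mul, mul_one,
    Finset.sum_range, getD_src h, getD_tgt h]
  push_cast
  simp only [cast_bq, be]

theorem MA_cons (u v : Fin n) (P : List Bool) (A : St) :
    MA n es (((u : ℕ), (v : ℕ), P) :: A) = MA n es A + vecMulVec (bv u v) (bv u v) := by
  ext i j
  simp only [MA, PT.matR_apply, matq, List.map_cons, List.sum_cons, Matrix.add_apply,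
    vecMulVec_apply]
  push_cast
  simp only [cast_bq]
  ring

theorem LA_nil (m : ℕ) : LA m [] = fun _ => 0 := by
  ext e; simp [LA, loadL]

theorem LA_cons (m u v : ℕ) (P : List Bool) (A : St) :
    LA m ((u, v, P) :: A) = bump (LA m A) (maskF m P) := by
  ext e
  simp only [LA, loadL, bump, List.countP_cons, mem_maskF]

theorem totL_eq (m : ℕ) (A : St) : totL m A = len (wt (LA m A)) univ := by
  rw [totL, Finset.sum_range]; rfl

theorem wL_eq (m : ℕ) (A : St) : (fun e : Fin m => (wL m A).getD e 0) = wt (LA m A) := by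
  ext e
  rw [wL, getD_map_range _ _ e.2]; rfl

theorem cast_ipq (A : St) (a b c d : Fin n) :
    ((ipq (invq n es A) a b c d : ℚ) : ℝ) = ip (MA n es A) (bv a b) (bv c d) := by
  have h : ∀ i j : Fin n, ((PT.ent (invq n es A) i j : ℚ) : ℝ) = (MA n es A)⁻¹ i j := by
    intro i j
    rw [invq, PT.ent_invL_tab, PT.cast_invF]; rfl
  rw [ip, bv_dot]
  simp only [ipq, mulVec, dot_bv]
  push_cast
  simp only [h]

theorem cast_resq (h : Loopless n es) (A : St) (e : Fin es.length) :
    ((resq (invq n es A) es e : ℚ) : ℝ) = res (srcF h) (tgtF h) (MA n es A) e := by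
  rw [resq, getD_src h, getD_tgt h, cast_ipq]; rfl

theorem cast_pwq (h : Loopless n es) (F : List Bool) (A : St) :
    ((pwq (invq n es A) es F : ℚ) : ℝ) =
      pw (srcF h) (tgtF h) (maskF es.length F) (MA n es A) (Fintype.card (Fin es.length) + 2) := by
  rw [pwq, pw, maskF, sum_filter, Finset.sum_range, Fintype.card_fin]
  push_cast
  refine sum_congr rfl fun e _ => ?_
  split_ifs
  · rw [Rat.cast_pow, cast_resq h]
  · simp

theorem cast_yvq (h : Loopless n es) (F : List Bool) (A : St) (u v : Fin n) :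
    ((yvq (invq n es A) es F u v : ℚ) : ℝ) =
      yv (srcF h) (tgtF h) (maskF es.length F) (MA n es A) (Fintype.card (Fin es.length)) u v := by
  rw [yvq, yv, maskF, sum_filter, Finset.sum_range, Fintype.card_fin]
  push_cast
  refine sum_congr rfl fun e _ => ?_
  split_ifs
  · rw [Rat.cast_mul, Rat.cast_pow, Rat.cast_pow, cast_resq h, getD_src h, getD_tgt h, cast_ipq]
    rfl
  · simp

theorem bad_iff (h : Loopless n es) (F : List Bool) (sig : ℚ) (A : St) (u v : Fin n) :
    bad n es F sig (invq n es A) (wL es.length A) (totL es.length A) (u, v) = true ↔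
      pw (srcF h) (tgtF h) (maskF es.length F) (MA n es A) (Fintype.card (Fin es.length) + 2) *
          len (wt (LA es.length A)) (maskF es.length (bf n es (wL es.length A) u v)) <
        yv (srcF h) (tgtF h) (maskF es.length F) (MA n es A) (Fintype.card (Fin es.length)) u v *
          sig * len (wt (LA es.length A)) univ := by
  rw [bad, decide_eq_true_iff, ← cast_pwq h, ← cast_yvq h, lenL_eq, wL_eq, totL_eq]
  exact_mod_cast Iff.rfl

theorem run_inv (h : Loopless n es) (hc : Conn (srcF h) (tgtF h)) (hE : 0 < es.length)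
    (F : List Bool) {sig : ℚ} (hsig : 0 < sig) (k : ℕ) :
    Inv (srcF h) (tgtF h) (maskF es.length F) sig (MA n es ((stepL n es F sig)^[k] []))
        (LA es.length ((stepL n es F sig)^[k] [])) ∧
      (¬ totL es.length ((stepL n es F sig)^[k] []) < es.length * 2 ^ c0 es.length ∨
        viol n es F sig ((stepL n es F sig)^[k] []) = none ∨
        k ≤ ∑ e, LA es.length ((stepL n es F sig)^[k] []) e) := by
  have hE' : 0 < Fintype.card (Fin es.length) := by simpa using hE
  have hsig' : (0 : ℝ) < sig := by exact_mod_cast hsig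
  induction k with
  | zero =>
    refine ⟨?_, Or.inr (Or.inr (Nat.zero_le _))⟩
    rw [Function.iterate_zero, id, MA_nil h, LA_nil]
    exact inv_init hc hE' hsig'.le
  | succ k ih =>
    rw [Function.iterate_succ_apply']
    generalize (stepL n es F sig)^[k] [] = A at ih ⊢
    obtain ⟨hI, hk⟩ := ih
    by_cases hW : totL es.length A < es.length * 2 ^ c0 es.length
    · rcases hv : viol n es F sig A with _ | p
      · have : stepL n es F sig A = A := by rw [stepL, if_pos hW, hv]; rfl
        rw [this]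
        exact ⟨hI, Or.inr (Or.inl hv)⟩
      · have hmem := List.mem_of_find?_eq_some hv
        have hbad := List.find?_some hv
        obtain ⟨u, v⟩ := p
        rw [List.pair_mem_product, List.mem_range, List.mem_range] at hmem
        lift u to Fin n using hmem.1
        lift v to Fin n using hmem.2
        have : stepL n es F sig A = ((u : ℕ), (v : ℕ), bf n es (wL es.length A) u v) :: A := by
          rw [stepL, if_pos hW, hv]; rfl
        rw [this, MA_cons, LA_cons]
        have hb := best_bf h hc (wL es.length A) u v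
        have hs := hI.step hc hE' hsig' (by rw [← totL_eq, Fintype.card_fin]; exact hW) hb.1
          ((bad_iff h F sig A u v).1 hbad)
        refine ⟨hs.1, Or.inr (Or.inr ?_)⟩
        rw [sum_bump]
        have h1 := hs.2.card_pos
        have h2 : k ≤ ∑ e, LA es.length A e :=
          (hk.resolve_left fun h => h hW).resolve_left (by rw [hv]; simp)
        omega
    · have : stepL n es F sig A = A := by rw [stepL, if_neg hW]
      rw [this]
      exact ⟨hI, Or.inl hW⟩

theorem matR_outL (A : St) :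
    matR n (outL n es A).2.1 = (3 * c0 (Fintype.card (Fin es.length)) : ℝ)⁻¹ • MA n es A := by
  ext i j
  have : matR n (outL n es A).2.1 i j = ((PT.ent (outL n es A).2.1 i j : ℚ) : ℝ) := rfl
  rw [this]
  simp only [outL, PT.ent_tab_fin, Fintype.card_fin, Matrix.smul_apply, MA, PT.matR_apply,
    smul_eq_mul]
  push_cast
  rfl

theorem inner_spec (F : List Bool) (sig : ℚ) (h : Loopless n es) (hsig : 0 < sig)
    (hc : Conn (srcF h) (tgtF h)) (hF : (maskF es.length F).Nonempty) :
    ((inner (⟨n⟩, es, F, sig)).1 = true →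
        Good (srcF h) (tgtF h) (maskF es.length F) (35 * sig)
          (matR n (inner (⟨n⟩, es, F, sig)).2.1)) ∧
      ((inner (⟨n⟩, es, F, sig)).1 = false →
        (inner (⟨n⟩, es, F, sig)).2.2.length = es.length ∧
        Cert (srcF h) (tgtF h) (maskF es.length F) sig
          (fun e => (inner (⟨n⟩, es, F, sig)).2.2.getD e 0)) := by
  have hE : 0 < es.length := hF.choose.pos
  have hE' : 0 < Fintype.card (Fin es.length) := by simpa using hE
  have hsig' : (0 : ℝ) < sig := by exact_mod_cast hsig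
  obtain ⟨hI, hk⟩ := run_inv h hc hE F hsig (es.length * (c0 es.length + es.length) + 1)
  have hin : inner (⟨n⟩, es, F, sig) = outL n es (runL n es F sig) := rfl
  rw [hin]
  change Inv _ _ _ _ (MA n es (runL n es F sig)) (LA _ (runL n es F sig)) at hI
  change ¬ totL _ (runL n es F sig) < _ ∨ viol _ _ _ _ (runL n es F sig) = none ∨
    _ ≤ ∑ e, LA _ (runL n es F sig) e at hk
  generalize runL n es F sig = A at hI hk ⊢
  constructor
  · intro h1
    rw [matR_outL]
    refine hI.good hE' hsig' ?_
    rw [← totL_eq, Fintype.card_fin]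
    simpa [outL] using h1
  · intro h1
    have hW : totL es.length A < es.length * 2 ^ c0 es.length := by simpa [outL] using h1
    refine ⟨by simp [outL], ?_⟩
    have hv : viol n es F sig A = none := by
      refine ((hk.resolve_left fun h => h hW).resolve_right fun h2 => ?_)
      have := sum_load_le (load := LA es.length A) (by rw [← totL_eq, Fintype.card_fin]; exact hW)
      rw [Fintype.card_fin] at this
      omega
    have h2 : (fun e : Fin es.length => (outL n es A).2.2.getD e 0) = rlen (LA es.length A) := by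
      ext e
      simp only [outL]
      rw [getD_map_range _ _ e.2, rlen, ← totL_eq, Fintype.card_fin]; rfl
    rw [h2]
    refine cert_of hI.pd (srcF_ne_tgtF h) hF hsig'
      (P := fun u v => maskF es.length (bf n es (wL es.length A) u v)) (fun u v => ?_)
      fun u v => ?_
    · rw [← wL_eq]; exact best_bf h hc _ u v
    · rw [viol, List.find?_eq_none] at hv
      have := hv (u, v) (List.pair_mem_product.2 ⟨List.mem_range.2 u.2, List.mem_range.2 v.2⟩)
      rw [bad_iff h] at this
      exact not_lt.1 this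

end correct

/-! ### polynomial time -/

section pt

universe u
variable {α : Type u} [Enc α]

@[fun_prop] theorem c0_pt {m : α → ℕ} (hm : PT m) : PT fun a => c0 (m a) := by
  unfold c0; fun_prop

@[fun_prop] theorem c0_pb {m : α → ℕ} (hm : PB m) : PB fun a => c0 (m a) := by
  unfold c0; fun_prop

@[fun_prop] theorem loadL_pt {A : α → St} {i : α → ℕ} (hA : PT A) (hi : PT i) :
    PT fun a => loadL (A a) (i a) := by
  unfold loadL; fun_prop

@[fun_prop] theorem loadL_pb {A : α → St} {i : α → ℕ} (hA : PT A) :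
    PB fun a => loadL (A a) (i a) :=
  PB.of_le_length hA fun _ => List.countP_le_length

@[fun_prop] theorem wL_pt {A : α → St} {m : α → ℕ} (hm : PT m) (hb : PB m) (hA : PT A) :
    PT fun a => wL (m a) (A a) := by
  unfold wL; fun_prop

@[fun_prop] theorem totL_pt {A : α → St} {m : α → ℕ} (hm : PT m) (hb : PB m) (hA : PT A) :
    PT fun a => totL (m a) (A a) := by
  unfold totL; fun_prop

@[fun_prop] theorem bq_pt {u v i : α → ℕ} (hu : PT u) (hv : PT v) (hi : PT i) :
    PT fun a => bq (u a) (v a) (i a) := by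
  unfold bq; fun_prop

@[fun_prop] theorem matq_pt {es : α → List (ℕ × ℕ)} {A : α → St} {i j : α → ℕ} (hes : PT es)
    (hA : PT A) (hi : PT i) (hj : PT j) : PT fun a => matq (es a) (A a) (i a) (j a) := by
  unfold matq; fun_prop

@[fun_prop] theorem invq_pt {n : α → ℕ} {es : α → List (ℕ × ℕ)} {A : α → St} (hn : PT n)
    (hb : PB n) (hes : PT es) (hA : PT A) : PT fun a => invq (n a) (es a) (A a) := by
  unfold invq; fun_prop

@[fun_prop] theorem ipq_pt {G : α → List (List ℚ)} {a b c d : α → ℕ} (hG : PT G) (ha : PT a)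
    (hb : PT b) (hc : PT c) (hd : PT d) : PT fun x => ipq (G x) (a x) (b x) (c x) (d x) := by
  unfold ipq; fun_prop

@[fun_prop] theorem resq_pt {G : α → List (List ℚ)} {es : α → List (ℕ × ℕ)} {e : α → ℕ}
    (hG : PT G) (hes : PT es) (he : PT e) : PT fun x => resq (G x) (es x) (e x) := by
  unfold resq; fun_prop

@[fun_prop] theorem pwq_pt {G : α → List (List ℚ)} {es : α → List (ℕ × ℕ)} {F : α → List Bool}
    (hG : PT G) (hes : PT es) (hF : PT F) : PT fun x => pwq (G x) (es x) (F x) := by
  unfold pwq; fun_prop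

@[fun_prop] theorem yvq_pt {G : α → List (List ℚ)} {es : α → List (ℕ × ℕ)} {F : α → List Bool}
    {u v : α → ℕ} (hG : PT G) (hes : PT es) (hF : PT F) (hu : PT u) (hv : PT v) :
    PT fun x => yvq (G x) (es x) (F x) (u x) (v x) := by
  unfold yvq; fun_prop

@[fun_prop] theorem bad_pt {n W : α → ℕ} {es : α → List (ℕ × ℕ)} {F : α → List Bool} {sig : α → ℚ}
    {G : α → List (List ℚ)} {w : α → List ℕ} {p : α → ℕ × ℕ} (hn : PT n) (hb : PB n)
    (hes : PT es) (hF : PT F) (hs : PT sig) (hG : PT G) (hw : PT w) (hW : PT W) (hp : PT p) :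
    PT fun x => bad (n x) (es x) (F x) (sig x) (G x) (w x) (W x) (p x) := by
  unfold bad; fun_prop

@[fun_prop] theorem viol_pt {n : α → ℕ} {es : α → List (ℕ × ℕ)} {F : α → List Bool} {sig : α → ℚ}
    {A : α → St} (hn : PT n) (hb : PB n) (hes : PT es) (hF : PT F) (hs : PT sig) (hA : PT A) :
    PT fun x => viol (n x) (es x) (F x) (sig x) (A x) := by
  unfold viol
  exact PT.find? (by fun_prop) (by fun_prop)

@[fun_prop] theorem stepL_pt {n : α → ℕ} {es : α → List (ℕ × ℕ)} {F : α → List Bool} {sig : α → ℚ}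
    {A : α → St} (hn : PT n) (hb : PB n) (hes : PT es) (hF : PT F) (hs : PT sig) (hA : PT A) :
    PT fun x => stepL (n x) (es x) (F x) (sig x) (A x) := by
  unfold stepL; fun_prop

theorem sz_stepL_le (n : ℕ) (es : List (ℕ × ℕ)) (F : List Bool) (sig : ℚ) (A : St) :
    sz (stepL n es F sig A) ≤ sz A + (8 * n + 4 * es.length + 10) := by
  unfold stepL
  split_ifs
  · rcases hv : viol n es F sig A with _ | ⟨u, v⟩
    · simp
    · have hmem := List.mem_of_find?_eq_some hv
      rw [List.pair_mem_product, List.mem_range, List.mem_range] at hmem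
      have h1 := sz_nat_le_self u
      have h2 := sz_nat_le_self v
      have h3 := sz_bf_le n es (wL es.length A) u v
      simp only [Option.elim_some, sz_cons, sz_mk]
      omega
  · omega

@[fun_prop] theorem runL_pt {n : α → ℕ} {es : α → List (ℕ × ℕ)} {F : α → List Bool} {sig : α → ℚ}
    (hn : PT n) (hb : PB n) (hes : PT es) (hF : PT F) (hs : PT sig) :
    PT fun x => runL (n x) (es x) (F x) (sig x) := by
  unfold runL
  exact PT.iterate_grow (f := fun x A => stepL (n x) (es x) (F x) (sig x) A) (by fun_prop)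
    (by fun_prop) (by fun_prop) (by fun_prop)
    (G := fun x => 8 * n x + 4 * (es x).length + 10) (by fun_prop) fun x A => sz_stepL_le _ _ _ _ _

@[fun_prop] theorem outL_pt {n : α → ℕ} {es : α → List (ℕ × ℕ)} {A : α → St}
    (hn : PT n) (hb : PB n) (hes : PT es) (hA : PT A) : PT fun x => outL (n x) (es x) (A x) := by
  unfold outL; fun_prop

end pt

attribute [irreducible] outL

theorem inner_pt : PT inner := by
  unfold inner
  exact outL_pt (by fun_prop) (by fun_prop) (by fun_prop)
    (runL_pt (by fun_prop) (by fun_prop) (by fun_prop) (by fun_prop) (by fun_prop))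

/-- **The inner loop.** -/
theorem innerStatement : InnerStatement :=
  ⟨inner, inner_pt, fun _ _ F sig h hsig hc hF => inner_spec F sig h hsig hc hF⟩

end Crest.Agent.X37.Inner
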