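import Mathlib

/-!
# Row 37, inner loop: quadratic forms and effective resistances

`qf M x = xᵀ M x`, `ip M a b = aᵀ M⁻¹ b`, `bv u v = e_u - e_v`.  Cauchy-Schwarz, the variational
bound and the rank-one update formula.
-/

set_option autoImplicit false
set_option linter.unusedSectionVars false

open Matrix Finset

namespace Crest.Agent.X37.Inner

variable {V : Type*} [Fintype V] [DecidableEq V]

/-- The quadratic form of a matrix. -/
def qf (M : Matrix V V ℝ) (x : V → ℝ) : ℝ := x ⬝ᵥ M *ᵥ x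

/-- The bilinear form of the inverse matrix. -/
noncomputable def ip (M : Matrix V V ℝ) (a b : V → ℝ) : ℝ := a ⬝ᵥ M⁻¹ *ᵥ b

/-- The signed incidence vector of the pair `u, v`. -/
def bv (u v : V) : V → ℝ := Pi.single u 1 - Pi.single v 1

theorem bv_dot (u v : V) (x : V → ℝ) : bv u v ⬝ᵥ x = x u - x v := by
  simp [bv, sub_dotProduct]

theorem dot_bv (u v : V) (x : V → ℝ) : x ⬝ᵥ bv u v = x u - x v := by
  rw [dotProduct_comm, bv_dot]

omit [Fintype V] in
@[simp] theorem bv_self (u : V) : bv u u = 0 := by simp [bv]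

omit [DecidableEq V] in
theorem symm_of_posDef {M : Matrix V V ℝ} (hM : M.PosDef) : Mᵀ = M := by
  have := hM.isHermitian
  rwa [IsHermitian, conjTranspose_eq_transpose_of_trivial] at this

omit [DecidableEq V] in
theorem dot_mulVec_comm {M : Matrix V V ℝ} (hM : Mᵀ = M) (x y : V → ℝ) :
    x ⬝ᵥ M *ᵥ y = y ⬝ᵥ M *ᵥ x := by
  rw [dotProduct_mulVec, ← mulVec_transpose, hM, dotProduct_comm]

omit [DecidableEq V] in
theorem qf_pos {M : Matrix V V ℝ} (hM : M.PosDef) {x : V → ℝ} (hx : x ≠ 0) : 0 < qf M x := by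
  simpa [qf] using hM.dotProduct_mulVec_pos hx

omit [DecidableEq V] in
theorem qf_nonneg {M : Matrix V V ℝ} (hM : M.PosDef) (x : V → ℝ) : 0 ≤ qf M x := by
  simpa [qf] using hM.posSemidef.dotProduct_mulVec_nonneg x

omit [DecidableEq V] in
theorem posDef_of_qf {M : Matrix V V ℝ} (hs : Mᵀ = M) (h : ∀ x, x ≠ 0 → 0 < qf M x) :
    M.PosDef := by
  refine PosDef.of_dotProduct_mulVec_pos ?_ ?_
  · rw [IsHermitian, conjTranspose_eq_transpose_of_trivial, hs]
  · intro x hx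
    simpa [qf] using h x hx

omit [DecidableEq V] in
theorem qf_add (M N : Matrix V V ℝ) (x : V → ℝ) : qf (M + N) x = qf M x + qf N x := by
  simp [qf, add_mulVec, dotProduct_add]

omit [DecidableEq V] in
theorem qf_smul (c : ℝ) (M : Matrix V V ℝ) (x : V → ℝ) : qf (c • M) x = c * qf M x := by
  simp [qf, smul_mulVec, dotProduct_smul]

omit [DecidableEq V] in
theorem qf_vecMulVec (b x : V → ℝ) : qf (vecMulVec b b) x = (b ⬝ᵥ x) ^ 2 := by
  simp only [qf, vecMulVec_mulVec, dotProduct_smul, MulOpposite.smul_eq_mul_unop,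
    MulOpposite.unop_op]
  rw [dotProduct_comm x b]; ring

omit [DecidableEq V] in
theorem qf_sum {ι : Type*} (s : Finset ι) (M : ι → Matrix V V ℝ) (x : V → ℝ) :
    qf (∑ i ∈ s, M i) x = ∑ i ∈ s, qf (M i) x := by
  classical
  induction s using Finset.induction_on with
  | empty => simp [qf]
  | insert a s ha ih => rw [sum_insert ha, sum_insert ha, qf_add, ih]

omit [DecidableEq V] in
/-- Cauchy-Schwarz for a positive definite form. -/
theorem cs_posDef {M : Matrix V V ℝ} (hM : M.PosDef) (x y : V → ℝ) :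
    (x ⬝ᵥ M *ᵥ y) ^ 2 ≤ qf M x * qf M y := by
  have hs := symm_of_posDef hM
  have h : ∀ t : ℝ, 0 ≤ qf M y * (t * t) + (2 * (x ⬝ᵥ M *ᵥ y)) * t + qf M x := by
    intro t
    have h1 := qf_nonneg hM (x + t • y)
    have h2 : qf M (x + t • y) = qf M y * (t * t) + (2 * (x ⬝ᵥ M *ᵥ y)) * t + qf M x := by
      simp only [qf, mulVec_add, mulVec_smul, add_dotProduct, dotProduct_add, smul_dotProduct,
        dotProduct_smul, smul_eq_mul]
      rw [dot_mulVec_comm hs y x]; ring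
    rwa [h2] at h1
  have := discrim_le_zero h
  simp only [discrim] at this
  nlinarith

theorem mul_inv_mulVec {M : Matrix V V ℝ} (hM : M.PosDef) (b : V → ℝ) : M *ᵥ M⁻¹ *ᵥ b = b := by
  rw [mulVec_mulVec, mul_nonsing_inv _ ((isUnit_iff_isUnit_det _).1 hM.isUnit), one_mulVec]

theorem inv_mul_mulVec {M : Matrix V V ℝ} (hM : M.PosDef) (b : V → ℝ) : M⁻¹ *ᵥ M *ᵥ b = b := by
  rw [mulVec_mulVec, nonsing_inv_mul _ ((isUnit_iff_isUnit_det _).1 hM.isUnit), one_mulVec]

theorem ip_comm {M : Matrix V V ℝ} (hM : M.PosDef) (a b : V → ℝ) : ip M a b = ip M b a :=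
  dot_mulVec_comm (symm_of_posDef hM.inv) a b


theorem ip_nonneg {M : Matrix V V ℝ} (hM : M.PosDef) (a : V → ℝ) : 0 ≤ ip M a a :=
  qf_nonneg hM.inv a

theorem ip_pos {M : Matrix V V ℝ} (hM : M.PosDef) {a : V → ℝ} (ha : a ≠ 0) : 0 < ip M a a :=
  qf_pos hM.inv ha

theorem ip_sq_le {M : Matrix V V ℝ} (hM : M.PosDef) (a b : V → ℝ) :
    ip M a b ^ 2 ≤ ip M a a * ip M b b := cs_posDef hM.inv a b

theorem qf_inv_mulVec {M : Matrix V V ℝ} (hM : M.PosDef) (b : V → ℝ) :
    qf M (M⁻¹ *ᵥ b) = ip M b b := by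
  rw [qf, mul_inv_mulVec hM, ip, dotProduct_comm]

/-- `b bᵀ ≤ (bᵀ M⁻¹ b) M`. -/
theorem dot_sq_le {M : Matrix V V ℝ} (hM : M.PosDef) (b x : V → ℝ) :
    (b ⬝ᵥ x) ^ 2 ≤ ip M b b * qf M x := by
  have h := cs_posDef hM (M⁻¹ *ᵥ b) x
  rw [qf_inv_mulVec hM, dot_mulVec_comm (symm_of_posDef hM), mul_inv_mulVec hM,
    dotProduct_comm] at h
  exact h

/-- `b bᵀ ≤ c M` bounds `bᵀ M⁻¹ b` by `c`. -/
theorem ip_le_of {M : Matrix V V ℝ} (hM : M.PosDef) (b : V → ℝ) {c : ℝ} (hc : 0 ≤ c)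
    (h : ∀ x, (b ⬝ᵥ x) ^ 2 ≤ c * qf M x) : ip M b b ≤ c := by
  have h1 := h (M⁻¹ *ᵥ b)
  rw [qf_inv_mulVec hM] at h1
  have h0 := ip_nonneg hM b
  change ip M b b ^ 2 ≤ _ at h1
  rcases h0.eq_or_lt with h0 | h0
  · rw [← h0]; exact hc
  · nlinarith

/-- Monotonicity: `c M ≤ N` gives `c bᵀ N⁻¹ b ≤ bᵀ M⁻¹ b`. -/
theorem ip_mono {M N : Matrix V V ℝ} (hM : M.PosDef) (hN : N.PosDef) {c : ℝ} (hc : 0 < c)
    (h : ∀ x, c * qf M x ≤ qf N x) (b : V → ℝ) : c * ip N b b ≤ ip M b b := by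
  have h0 := ip_nonneg hM b
  have : ip N b b ≤ ip M b b / c := by
    refine ip_le_of hN b (by positivity) fun x => ?_
    refine (dot_sq_le hM b x).trans ?_
    have h1 := h x
    have : qf M x ≤ qf N x / c := by rw [le_div_iff₀ hc]; linarith
    calc ip M b b * qf M x ≤ ip M b b * (qf N x / c) := by gcongr
      _ = ip M b b / c * qf N x := by ring
  rw [le_div_iff₀ hc] at this
  linarith

omit [DecidableEq V] in
theorem posDef_add_vecMulVec {M : Matrix V V ℝ} (hM : M.PosDef) (b : V → ℝ) :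
    (M + vecMulVec b b).PosDef := by
  refine hM.add_posSemidef ?_
  simpa using posSemidef_vecMulVec_self_star b

/-- The rank-one update formula. -/
theorem ip_add_vecMulVec {M : Matrix V V ℝ} (hM : M.PosDef) (b a : V → ℝ) :
    ip (M + vecMulVec b b) a a = ip M a a - ip M a b ^ 2 / (1 + ip M b b) := by
  have hN := posDef_add_vecMulVec hM b
  have h0 : 0 < 1 + ip M b b := by have := ip_nonneg hM b; linarith
  set y : V → ℝ := M⁻¹ *ᵥ a - (ip M b a / (1 + ip M b b)) • M⁻¹ *ᵥ b with hy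
  have h1 : (M + vecMulVec b b) *ᵥ y = a := by
    rw [add_mulVec, hy, mulVec_sub, mulVec_smul, mul_inv_mulVec hM, mul_inv_mulVec hM,
      vecMulVec_mulVec]
    ext i
    simp only [dotProduct_sub, dotProduct_smul, smul_eq_mul, Pi.add_apply, Pi.sub_apply,
      Pi.smul_apply, MulOpposite.smul_eq_mul_unop, MulOpposite.unop_op]
    change a i - ip M b a / (1 + ip M b b) * b i
      + b i * (ip M b a - ip M b a / (1 + ip M b b) * ip M b b) = a i
    field_simp
    ring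
  have h2 : (M + vecMulVec b b)⁻¹ *ᵥ a = y := by
    rw [← h1, inv_mul_mulVec hN]
  rw [ip, h2, hy, dotProduct_sub, dotProduct_smul, smul_eq_mul]
  change ip M a a - ip M b a / (1 + ip M b b) * ip M a b = _
  rw [ip_comm hM b a]; ring

theorem posDef_smul {M : Matrix V V ℝ} (hM : M.PosDef) {c : ℝ} (hc : 0 < c) : (c • M).PosDef :=
  hM.smul hc

theorem ip_smul_self {M : Matrix V V ℝ} (hM : M.PosDef) {c : ℝ} (hc : 0 < c) (b : V → ℝ) :
    ip (c • M) b b = ip M b b / c := by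
  have h1 := ip_mono hM (posDef_smul hM hc) hc (fun x => by rw [qf_smul]) b
  have h2 := ip_mono (posDef_smul hM hc) hM (inv_pos.2 hc)
    (fun x => by rw [qf_smul, ← mul_assoc, inv_mul_cancel₀ hc.ne', one_mul]) b
  rw [eq_div_iff hc.ne']
  have h3 : ip M b b ≤ c * ip (c • M) b b := by
    have := mul_le_mul_of_nonneg_left h2 hc.le
    rwa [← mul_assoc, mul_inv_cancel₀ hc.ne', one_mul] at this
  linarith

end Crest.Agent.X37.Inner
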